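import Vale.Agent.P090.K.Words

/-!
# A finite group generated by involutions, of large girth (P090, Kalton problem)

Biggs' construction: the letters act on the finite set of reduced words of length at most `r`
(delete the first letter if it is `σ`; otherwise put `σ` in front if the length allows it; otherwise do
nothing).
-/

namespace Vale.Agent.P090

open Classical

/-- Reduced words (no two consecutive letters equal) of length at most `r`. -/
def RWr (S : Type) (r : ℕ) : Type := {v : List S // v.IsChain (· ≠ ·) ∧ v.length ≤ r}

instance (S : Type) [Finite S] (r : ℕ) : Finite (RWr S r) := by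
  have h : {l : List S | l.length ≤ r}.Finite := List.finite_length_le S r
  have h2 : {v : List S | v.IsChain (· ≠ ·) ∧ v.length ≤ r}.Finite := h.subset (fun v hv => hv.2)
  exact h2.to_subtype

variable {S : Type} {r : ℕ}

/-- The underlying list of the image of a reduced word under a letter. -/
noncomputable def biggsList (r : ℕ) (σ : S) (v : List S) : List S :=
  if v.head? = some σ then v.tail else if v.length < r then σ :: v else v

theorem isChain_cons_of_head (σ : S) (v : List S) (hv : v.IsChain (· ≠ ·))
    (h : v.head? ≠ some σ) : (σ :: v).IsChain (· ≠ ·) := by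
  cases v with
  | nil => exact List.isChain_singleton σ
  | cons b l =>
    refine List.isChain_cons_cons.2 ⟨?_, hv⟩
    intro hb
    apply h
    simp [hb]

theorem head_ne_of_isChain_cons (σ : S) (t : List S) (hv : (σ :: t).IsChain (· ≠ ·)) :
    t.head? ≠ some σ := by
  cases t with
  | nil => simp
  | cons b l =>
    have := (List.isChain_cons_cons.1 hv).1
    intro hb
    apply this
    simpa using hb.symm

theorem biggsList_mem (σ : S) (v : RWr S r) :
    (biggsList r σ v.1).IsChain (· ≠ ·) ∧ (biggsList r σ v.1).length ≤ r := by
  obtain ⟨v, hc, hl⟩ := v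
  simp only [biggsList]
  split_ifs with h1 h2
  · refine ⟨hc.tail, ?_⟩
    rw [List.length_tail]
    omega
  · exact ⟨isChain_cons_of_head σ v hc h1, by rw [List.length_cons]; omega⟩
  · exact ⟨hc, hl⟩

/-- The action of a letter on reduced words of length at most `r`. -/
noncomputable def biggsFun (σ : S) (v : RWr S r) : RWr S r := ⟨biggsList r σ v.1, biggsList_mem σ v⟩

theorem biggsList_cons (σ : S) (t : List S) (hc : (σ :: t).IsChain (· ≠ ·))
    (hl : (σ :: t).length ≤ r) : biggsList r σ t = σ :: t := by
  have h1 := head_ne_of_isChain_cons σ t hc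
  have h2 : t.length < r := by
    rw [List.length_cons] at hl
    omega
  simp [biggsList, h1, h2]

theorem biggsFun_biggsFun (σ : S) (v : RWr S r) : biggsFun σ (biggsFun σ v) = v := by
  obtain ⟨v, hc, hl⟩ := v
  apply Subtype.ext
  show biggsList r σ (biggsList r σ v) = v
  by_cases h1 : v.head? = some σ
  · cases v with
    | nil => simp at h1
    | cons b t =>
      have hb : b = σ := by simpa using h1
      subst hb
      have e : biggsList r b (b :: t) = t := by simp [biggsList]
      rw [e]
      exact biggsList_cons b t hc hl
  · by_cases h2 : v.length < r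
    · have e : biggsList r σ v = σ :: v := by simp [biggsList, h1, h2]
      rw [e]
      simp [biggsList]
    · have e : biggsList r σ v = v := by simp [biggsList, h1, h2]
      rw [e, e]

/-- The action of a letter as a permutation. -/
noncomputable def biggsPerm (r : ℕ) (σ : S) : Equiv.Perm (RWr S r) :=
  ⟨biggsFun σ, biggsFun σ, biggsFun_biggsFun σ, biggsFun_biggsFun σ⟩

theorem biggsPerm_sq (σ : S) : biggsPerm r σ * biggsPerm r σ = 1 := by
  apply Equiv.ext
  intro v
  exact biggsFun_biggsFun σ v

theorem prod_biggsPerm_nil_aux (v : List S) (h : v.IsChain (· ≠ ·) ∧ v.length ≤ r) :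
    ((v.map (biggsPerm r)).prod ⟨[], List.isChain_nil, Nat.zero_le r⟩ : RWr S r) = ⟨v, h⟩ := by
  induction v with
  | nil => rfl
  | cons σ t ih =>
    have ht : t.IsChain (· ≠ ·) ∧ t.length ≤ r := by
      refine ⟨h.1.tail, ?_⟩
      have := h.2
      rw [List.length_cons] at this
      omega
    rw [List.map_cons, List.prod_cons]
    exact (congrArg (biggsFun σ) (ih ht)).trans (Subtype.ext (biggsList_cons σ t h.1 h.2))

/-- A reduced word of length at most `r`, applied to the empty word, gives back the word. -/
theorem prod_biggsPerm_nil (v : RWr S r) :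
    ((v.1.map (biggsPerm r)).prod ⟨[], List.isChain_nil, Nat.zero_le r⟩ : RWr S r) = v :=
  prod_biggsPerm_nil_aux v.1 v.2

theorem exists_double_of_not_isChain (u : List S) (h : ¬ u.IsChain (· ≠ ·)) :
    ∃ (u₁ : List S) (σ : S) (u₂ : List S), u = u₁ ++ σ :: σ :: u₂ := by
  induction u with
  | nil => exact absurd List.isChain_nil h
  | cons b t ih =>
    cases t with
    | nil => exact absurd (List.isChain_singleton b) h
    | cons c l =>
      by_cases hbc : b = c
      · subst hbc
        exact ⟨[], b, l, rfl⟩
      · have h2 : ¬ (c :: l).IsChain (· ≠ ·) := by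
          intro h3
          exact h (List.isChain_cons_cons.2 ⟨hbc, h3⟩)
        obtain ⟨u₁, σ, u₂, e⟩ := ih h2
        exact ⟨b :: u₁, σ, u₂, by rw [e]; rfl⟩

/-- Large girth: a word of length at most `r` which is trivial in the permutation group acts
trivially on every set with involutions. Proof: induction on the length. If `u` is reduced, it is
empty by `prod_biggsPerm_nil`. Otherwise `u = u₁ ++ σ :: σ :: u₂`, and the two letters can be cancelled
on both sides. -/
theorem biggs_girth {A : Type*} (ν : S → A → A) (hν : ∀ σ a, ν σ (ν σ a) = a) (u : List S)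
    (hu : u.length ≤ r) (h1 : (u.map (biggsPerm r)).prod = 1) (a : A) : actW ν u a = a := by
  induction hn : u.length using Nat.strong_induction_on generalizing u with
  | _ n ih =>
    by_cases hc : u.IsChain (· ≠ ·)
    · have h2 := prod_biggsPerm_nil (⟨u, hc, hu⟩ : RWr S r)
      simp only [h1] at h2
      have h3 : ([] : List S) = u := congrArg Subtype.val h2
      rw [← h3]
      rfl
    · obtain ⟨u₁, σ, u₂, e⟩ := exists_double_of_not_isChain u hc
      subst e
      have hlen : (u₁ ++ u₂).length + 2 = (u₁ ++ σ :: σ :: u₂).length := by
        simp only [List.length_append, List.length_cons]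
        omega
      have hp : ((u₁ ++ u₂).map (biggsPerm r)).prod = 1 := by
        rw [← h1]
        simp only [List.map_append, List.map_cons, List.prod_append, List.prod_cons]
        rw [← mul_assoc (biggsPerm r σ), biggsPerm_sq, one_mul]
      have h4 := ih (u₁ ++ u₂).length (by omega) (u₁ ++ u₂) (by omega) hp rfl
      rw [actW_append] at h4 ⊢
      rw [actW_cons, actW_cons, hν]
      exact h4

end Vale.Agent.P090
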