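import Vale.Agent.P090.K.Words

/-!
# Completing a graph with missing edges by hair (P090, Kalton problem)

`nb σ` are involutions of `X`; a fixed point `nb σ x = x` means that there is no edge with label `σ` at
`x`. The completion is `X × RW S`, where `RW S` is the set of reduced words: `(x, v)` is the end of a hair
attached at `x`, the head of `v` being the last letter.
-/

namespace Vale.Agent.P090

open Classical

/-- Reduced words (no two consecutive letters equal). -/
def RW (S : Type) : Type := {v : List S // v.IsChain (· ≠ ·)}

/-- The empty reduced word. -/
def RW.nil (S : Type) : RW S := ⟨[], List.isChain_nil⟩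

variable {S X : Type} (nb : S → X → X)

/-- The action of a letter on lists: at the root (`v = []`) follow the edge if there is one and start a
hair otherwise; on a hair, go back if `σ` is the last letter and go on otherwise. (The case
`v = [σ]` with an edge `σ` at `x` does not occur on hairs which start with a missing edge; it is
defined so that the action is an involution.) -/
noncomputable def hairList (σ : S) (x : X) (v : List S) : X × List S :=
  match v with
  | [] => if nb σ x = x then (x, [σ]) else (nb σ x, [])
  | [a] => if a = σ then (if nb σ x = x then (x, []) else (nb σ x, [a])) else (x, [σ, a])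
  | a :: b :: v' => if a = σ then (x, b :: v') else (x, σ :: a :: b :: v')

theorem hairList_isChain (σ : S) (x : X) (v : RW S) :
    (hairList nb σ x v.1).2.IsChain (· ≠ ·) := by
  obtain ⟨v, hv⟩ := v
  match v, hv with
  | [], _ =>
    simp only [hairList]
    split_ifs <;> simp
  | [a], _ =>
    simp only [hairList]
    split_ifs with h1 h2
    · simp
    · simp
    · simp only [List.isChain_cons_cons, List.isChain_singleton, and_true]
      exact fun h => h1 h.symm
  | a :: b :: v', hv =>
    simp only [hairList]
    split_ifs with h1
    · exact (List.isChain_cons_cons.1 hv).2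
    · exact List.isChain_cons_cons.2 ⟨fun h => h1 h.symm, hv⟩

/-- The action of a letter on the completion. -/
noncomputable def hairStep (σ : S) (z : X × RW S) : X × RW S :=
  ((hairList nb σ z.1 z.2.1).1, ⟨(hairList nb σ z.1 z.2.1).2, hairList_isChain nb σ z.1 z.2⟩)

theorem hairList_hairList (hnb : ∀ σ x, nb σ (nb σ x) = x) (σ : S) (x : X) (v : List S)
    (hv : v.IsChain (· ≠ ·)) :
    hairList nb σ (hairList nb σ x v).1 (hairList nb σ x v).2 = (x, v) := by
  match v, hv with
  | [], _ =>
    by_cases h : nb σ x = x
    · simp [hairList, h]
    · have h' : ¬ x = nb σ x := fun e => h e.symm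
      simp [hairList, h, hnb, h']
  | [a], _ =>
    by_cases h1 : a = σ
    · subst h1
      by_cases h : nb a x = x
      · simp [hairList, h]
      · have h' : ¬ x = nb a x := fun e => h e.symm
        simp [hairList, h, hnb, h']
    · simp [hairList, h1]
  | a :: b :: v', hv =>
    by_cases h1 : a = σ
    · subst h1
      have hab : a ≠ b := (List.isChain_cons_cons.1 hv).1
      have hba : ¬ b = a := fun e => hab e.symm
      cases v' with
      | nil => simp [hairList, hba]
      | cons c v'' => simp [hairList, hba]
    · simp [hairList, h1]

theorem hairStep_hairStep (hnb : ∀ σ x, nb σ (nb σ x) = x) (σ : S) (z : X × RW S) :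
    hairStep nb σ (hairStep nb σ z) = z := by
  obtain ⟨x, v, hv⟩ := z
  have h := hairList_hairList nb hnb σ x v hv
  have h1 : (hairList nb σ (hairList nb σ x v).1 (hairList nb σ x v).2).1 = x :=
    congrArg Prod.fst h
  have h2 : (hairList nb σ (hairList nb σ x v).1 (hairList nb σ x v).2).2 = v :=
    congrArg Prod.snd h
  apply Prod.ext
  · exact h1
  · apply Subtype.ext
    exact h2

theorem hairStep_root_of_ne {σ : S} {x : X} (h : nb σ x ≠ x) :
    hairStep nb σ (x, RW.nil S) = (nb σ x, RW.nil S) := by
  apply Prod.ext
  · simp [hairStep, hairList, RW.nil, h]
  · apply Subtype.ext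
    simp [hairStep, hairList, RW.nil, h]

theorem hairList_fst (σ : S) (x : X) (v : List S) :
    (hairList nb σ x v).1 = x ∨ (hairList nb σ x v).1 = nb σ x := by
  match v with
  | [] =>
    simp only [hairList]
    split_ifs <;> simp
  | [a] =>
    simp only [hairList]
    split_ifs <;> simp
  | a :: b :: v' =>
    simp only [hairList]
    split_ifs <;> simp

/-- The first coordinate moves only along edges, so any `nb`-invariant function is invariant. -/
theorem hairStep_invariant {I : Type*} (idx : X → I) (hidx : ∀ σ x, idx (nb σ x) = idx x) (σ : S)
    (z : X × RW S) : idx (hairStep nb σ z).1 = idx z.1 := by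
  rcases hairList_fst nb σ z.1 z.2.1 with h | h
  · simp only [hairStep, h]
  · simp only [hairStep, h, hidx]

theorem actW_hairStep_invariant {I : Type*} (idx : X → I) (hidx : ∀ σ x, idx (nb σ x) = idx x)
    (u : List S) (z : X × RW S) : idx (actW (hairStep nb) u z).1 = idx z.1 := by
  induction u generalizing z with
  | nil => rfl
  | cons σ u ih =>
    rw [actW_cons, ih, hairStep_invariant nb idx hidx]

theorem length_hairList_le (σ : S) (x : X) (v : List S) :
    (hairList nb σ x v).2.length ≤ v.length + 1 := by
  match v with
  | [] =>
    simp only [hairList]
    split_ifs <;> simp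
  | [a] =>
    simp only [hairList]
    split_ifs <;> simp
  | a :: b :: v' =>
    simp only [hairList]
    split_ifs <;> simp

/-- The length of the hair grows by at most one at each step. -/
theorem length_actW_hairStep_le (u : List S) (z : X × RW S) :
    (actW (hairStep nb) u z).2.1.length ≤ z.2.1.length + u.length := by
  induction u generalizing z with
  | nil => simp
  | cons σ u ih =>
    rw [actW_cons]
    have h1 := ih (hairStep nb σ z)
    have h2 : (hairStep nb σ z).2.1.length ≤ z.2.1.length + 1 :=
      length_hairList_le nb σ z.1 z.2.1
    simp only [List.length_cons]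
    omega

end Vale.Agent.P090
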