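import Mathlib

/-!
# The tower of labelled cubic Cayley graphs (P090, Kalton problem)

A level is a finite group `G` with three involutions `gen s`, a sign `sgn` which is flipped by every
generator, and a labelling `lab x s` of the edge `{x, x * gen s}` of the Cayley graph.

`next A` is the wreath product `(Fin 3 → ZMod 2) ≀ A.G`: an element is a pair `(f, g)` where
`g : A.G` and `f` assigns a bit to each pair `(vertex, colour)`, that is to each end of an edge of the
Cayley graph of `A`. Multiplying by the generator of colour `s` moves `g` to `g * A.gen s` and flips the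
bits at `(g, s)` and `(g * A.gen s, s)`: so `f` records the parity of the number of times each edge has
been traversed. The label of the edge of colour `s` at `(f, g)` records `s` and the four bits of the
four edges adjacent to the edge `{g, g * A.gen s}` (ordered with the help of the sign).
-/

namespace Vale.Agent.P090

open Classical

/-- The alphabet of labels. -/
abbrev Lab : Type := Fin 3 × ((ZMod 2 × ZMod 2) × (ZMod 2 × ZMod 2))

/-- A level of the tower. -/
structure Lvl where
  G : Type
  [grp : Group G]
  [fin : Finite G]
  gen : Fin 3 → G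
  sgn : G → Bool
  lab : G → Fin 3 → Lab
  gen_sq : ∀ s, gen s * gen s = 1
  sgn_gen : ∀ x s, sgn (x * gen s) = !sgn x
  lab_fst : ∀ x s, (lab x s).1 = s
  lab_symm : ∀ x s, lab (x * gen s) s = lab x s

attribute [instance] Lvl.grp Lvl.fin

namespace Lvl

/-- Value of a word in the generators. -/
def ev (A : Lvl) (w : List (Fin 3)) : A.G := (w.map A.gen).prod

/-- The bottom level: the group with two elements. -/
def zero : Lvl where
  G := Multiplicative (ZMod 2)
  gen := fun _ => Multiplicative.ofAdd 1
  sgn := fun x => decide (Multiplicative.toAdd x = 1)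
  lab := fun _ s => (s, ((0, 0), (0, 0)))
  gen_sq := by
    intro _
    decide
  sgn_gen := by
    intro x _
    revert x
    decide
  lab_fst := fun _ _ => rfl
  lab_symm := fun _ _ => rfl

variable (A : Lvl)

/-- The bits flipped by the generator of colour `s` (at the identity). -/
noncomputable def eta (s : Fin 3) : A.G → Fin 3 → Multiplicative (ZMod 2) :=
  fun x c => if (x = 1 ∨ x = A.gen s) ∧ c = s then Multiplicative.ofAdd 1 else 1

/-- The two bits at the vertex `u` of the two colours different from `s`. -/
def bt (f : A.G → Fin 3 → Multiplicative (ZMod 2)) (u : A.G) (s : Fin 3) : ZMod 2 × ZMod 2 :=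
  (Multiplicative.toAdd (f u (s + 1)), Multiplicative.toAdd (f u (s + 2)))

/-- The generators of the next level. -/
noncomputable def nextGen (s : Fin 3) : RegularWreathProduct (Fin 3 → Multiplicative (ZMod 2)) A.G :=
  ⟨A.eta s, A.gen s⟩

/-- The labels of the next level. -/
def nextLab (x : RegularWreathProduct (Fin 3 → Multiplicative (ZMod 2)) A.G) (s : Fin 3) : Lab :=
  (s, if A.sgn x.right then (A.bt x.left (x.right * A.gen s) s, A.bt x.left x.right s)
    else (A.bt x.left x.right s, A.bt x.left (x.right * A.gen s) s))

theorem gen_inv_tower (s : Fin 3) : (A.gen s)⁻¹ = A.gen s :=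
  inv_eq_of_mul_eq_one_left (A.gen_sq s)

theorem ofAdd_one_sq_tower :
    (Multiplicative.ofAdd (1 : ZMod 2)) * Multiplicative.ofAdd 1 = 1 := by
  decide

theorem eta_shift_tower (s : Fin 3) (x : A.G) (c : Fin 3) :
    A.eta s ((A.gen s)⁻¹ * x) c = A.eta s x c := by
  have h1 : ((A.gen s)⁻¹ * x = 1 ∨ (A.gen s)⁻¹ * x = A.gen s) ↔ (x = 1 ∨ x = A.gen s) := by
    rw [inv_mul_eq_one, inv_mul_eq_iff_eq_mul, A.gen_sq s]
    constructor
    · rintro (h | h)
      · exact Or.inr h.symm
      · exact Or.inl h
    · rintro (h | h)
      · exact Or.inr h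
      · exact Or.inl h.symm
  unfold eta
  simp only [h1]

theorem eta_of_ne_tower (s : Fin 3) (x : A.G) {c : Fin 3} (hc : c ≠ s) : A.eta s x c = 1 := by
  unfold eta
  rw [if_neg]
  rintro ⟨_, h⟩
  exact hc h

theorem nextGen_sq_tower (s : Fin 3) : A.nextGen s * A.nextGen s = 1 := by
  refine RegularWreathProduct.ext (funext fun x => funext fun c => ?_) ?_
  · simp only [nextGen, RegularWreathProduct.mul_left, RegularWreathProduct.one_left,
      Pi.mul_apply, Pi.one_apply]
    rw [eta_shift_tower]
    unfold eta
    split_ifs
    · exact ofAdd_one_sq_tower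
    · exact mul_one 1
  · simp only [nextGen, RegularWreathProduct.mul_right, RegularWreathProduct.one_right]
    exact A.gen_sq s

theorem bt_mul_tower (x : RegularWreathProduct (Fin 3 → Multiplicative (ZMod 2)) A.G)
    (s : Fin 3) (u : A.G) : A.bt (x * A.nextGen s).left u s = A.bt x.left u s := by
  have h1 : s + 1 ≠ s := by revert s; decide
  have h2 : s + 2 ≠ s := by revert s; decide
  unfold bt
  simp only [nextGen, RegularWreathProduct.mul_left, Pi.mul_apply]
  rw [eta_of_ne_tower A s _ h1, eta_of_ne_tower A s _ h2, mul_one, mul_one]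

theorem nextLab_symm_tower (x : RegularWreathProduct (Fin 3 → Multiplicative (ZMod 2)) A.G)
    (s : Fin 3) : A.nextLab (x * A.nextGen s) s = A.nextLab x s := by
  have hr : (x * A.nextGen s).right = x.right * A.gen s := rfl
  have hb : x.right * A.gen s * A.gen s = x.right := by
    rw [mul_assoc, A.gen_sq s, mul_one]
  unfold nextLab
  rw [hr, hb, A.sgn_gen, bt_mul_tower, bt_mul_tower]
  cases A.sgn x.right <;> simp

/-- The next level of the tower. -/
noncomputable def next : Lvl where
  G := RegularWreathProduct (Fin 3 → Multiplicative (ZMod 2)) A.G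
  gen := A.nextGen
  sgn := fun x => A.sgn x.right
  lab := A.nextLab
  gen_sq := A.nextGen_sq_tower
  sgn_gen := fun x s => A.sgn_gen x.right s
  lab_fst := fun _ _ => rfl
  lab_symm := A.nextLab_symm_tower

theorem gen_ne_one (s : Fin 3) : A.gen s ≠ 1 := by
  intro h
  have h1 := A.sgn_gen 1 s
  rw [h, mul_one] at h1
  cases hs : A.sgn 1 <;> rw [hs] at h1 <;> simp at h1

theorem ev_next_right (w : List (Fin 3)) :
    (show RegularWreathProduct (Fin 3 → Multiplicative (ZMod 2)) A.G from A.next.ev w).right =
      A.ev w := by
  induction w with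
  | nil => rfl
  | cons a w ih =>
    have h1 : A.next.ev (a :: w) = A.next.gen a * A.next.ev w := by
      simp [ev]
    have h2 : A.ev (a :: w) = A.gen a * A.ev w := by
      simp [ev]
    rw [h2, ← ih]
    show (show RegularWreathProduct (Fin 3 → Multiplicative (ZMod 2)) A.G from
      A.next.ev (a :: w)).right = _
    rw [h1]
    rfl

theorem ev_eq_one_of_next {w : List (Fin 3)} (h : A.next.ev w = 1) : A.ev w = 1 := by
  rw [← ev_next_right, h]
  rfl

end Lvl

/-- The tower. -/
noncomputable def tower : ℕ → Lvl
  | 0 => Lvl.zero
  | k + 1 => (tower k).next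

theorem tower_ev_mono {j k : ℕ} (hjk : j ≤ k) {w : List (Fin 3)} (h : (tower k).ev w = 1) :
    (tower j).ev w = 1 := by
  induction k, hjk using Nat.le_induction with
  | base => exact h
  | succ k _ ih => exact ih ((tower k).ev_eq_one_of_next h)

end Vale.Agent.P090
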