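import Vale.Agent.P090.K.FrameMain
import Vale.Agent.P090.K.Tower
import Vale.Agent.P090.K.Gamma
import Vale.Agent.P090.K.Hair

/-!
# The concrete frames (P090, Kalton problem)
-/

namespace Vale.Agent.P090

open Classical

/-- The real points (before multiplying by `Gam`): the disjoint union of all levels of the tower, and one
extra point `none` (the terminal), which has no edges. -/
abbrev KX : Type := Option (Σ k : ℕ, (tower k).G)

/-- The labelled graph structure on `KX`: `kNb σ x = x` means that there is no edge with label `σ`. -/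
noncomputable def kNb (σ : Lab) : KX → KX
  | none => none
  | some ⟨k, x⟩ => if (tower k).lab x σ.1 = σ then some ⟨k, x * (tower k).gen σ.1⟩ else some ⟨k, x⟩

theorem kNb_kNb (σ : Lab) (x : KX) : kNb σ (kNb σ x) = x := by
  rcases x with _ | ⟨k, x⟩
  · rfl
  · by_cases h : (tower k).lab x σ.1 = σ
    · have h1 : kNb σ (some ⟨k, x⟩) = some ⟨k, x * (tower k).gen σ.1⟩ := by
        simp only [kNb, if_pos h]
      have h2 : (tower k).lab (x * (tower k).gen σ.1) σ.1 = σ := by
        rw [(tower k).lab_symm, h]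
      rw [h1]
      simp only [kNb, if_pos h2, mul_assoc, (tower k).gen_sq, mul_one]
    · have h1 : kNb σ (some ⟨k, x⟩) = some ⟨k, x⟩ := by
        simp only [kNb, if_neg h]
      rw [h1, h1]

/-- The level of a point. -/
def kIdx : KX → Option ℕ
  | none => none
  | some ⟨k, _⟩ => some k

theorem kIdx_kNb (σ : Lab) (x : KX) : kIdx (kNb σ x) = kIdx x := by
  rcases x with _ | ⟨k, x⟩
  · rfl
  · by_cases h : (tower k).lab x σ.1 = σ
    · simp only [kNb, if_pos h, kIdx]
    · simp only [kNb, if_neg h]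

/-- The scale `L` of the `n`-th piece. -/
def kL (n : ℕ) : ℕ := 24 * (n + 1)

/-- The scale `W` of the `n`-th piece. -/
def kW (n : ℕ) : ℕ := 24 * (3 + 2 * n * kL n)

/-- The `n`-th frame. -/
noncomputable def kFrame (n : ℕ) : Frame where
  S := Lab
  Gam := Equiv.Perm (RWr Lab (2 * kW n))
  Z := KX × RW Lab
  X := KX
  finG := Fintype.ofFinite _
  tau := biggsPerm (2 * kW n)
  nu := hairStep kNb
  e := fun x => (x, RW.nil Lab)
  star := none
  W := kW n
  L := kL n
  tau_sq := biggsPerm_sq
  nu_nu := hairStep_hairStep kNb kNb_kNb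
  e_inj := fun _ _ h => (Prod.ext_iff.1 h).1
  one_le_L := by
    unfold kL
    omega
  L_le_W := by
    unfold kW
    have h : 0 ≤ 2 * n * kL n := Nat.zero_le _
    by_cases hn : n = 0
    · subst hn
      unfold kL
      omega
    · have h1 : kL n ≤ n * kL n := Nat.le_mul_of_pos_left _ (Nat.pos_of_ne_zero hn)
      have h2 : 2 * n * kL n = 2 * (n * kL n) := by ring
      omega
  girth := fun u hu h1 z => biggs_girth (hairStep kNb) (hairStep_hairStep kNb kNb_kNb) u hu h1 z

/-- The numerical inequality needed in `Frame.no_approxData`, with `lam = n` and `η = 1`. -/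
theorem kFrame_small (n : ℕ) :
    3 * (2 / ((kFrame n).L : ℝ) * ((n : ℝ) + 1) +
        2 / ((kFrame n).W : ℝ) * (1 + 2 * ((n : ℝ) * (kFrame n).L + 1))) <
      1 - ((n : ℝ) * (kFrame n).L + 1) / (kFrame n).W := by
  have hL : (((kFrame n).L : ℕ) : ℝ) = 24 * ((n : ℝ) + 1) := by
    show ((kL n : ℕ) : ℝ) = _
    unfold kL
    push_cast
    ring
  have hW : (((kFrame n).W : ℕ) : ℝ) = 24 * (3 + 2 * (n : ℝ) * (24 * ((n : ℝ) + 1))) := by
    show ((kW n : ℕ) : ℝ) = _
    unfold kW kL
    push_cast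
    ring
  rw [hL, hW]
  have hn : (0 : ℝ) ≤ n := Nat.cast_nonneg n
  set x : ℝ := (n : ℝ) * (24 * ((n : ℝ) + 1)) with hx
  have hx0 : 0 ≤ x := by positivity
  have e1 : 2 / (24 * ((n : ℝ) + 1)) * ((n : ℝ) + 1) = 1 / 12 := by
    field_simp
    norm_num
  have e2 : 2 * (n : ℝ) * (24 * ((n : ℝ) + 1)) = 2 * x := by rw [hx]; ring
  rw [e1, e2]
  have e3 : 2 / (24 * (3 + 2 * x)) * (1 + 2 * (x + 1)) = 1 / 12 := by
    field_simp
    ring
  rw [e3]
  have e4 : (x + 1) / (24 * (3 + 2 * x)) < 1 / 2 := by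
    rw [div_lt_div_iff₀ (by positivity) (by norm_num)]
    nlinarith
  linarith

end Vale.Agent.P090
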