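import Vale.Agent.P090.K.Hair

/-!
# Infinite reduced paths in the completion (P090, Kalton problem)
-/

namespace Vale.Agent.P090

open Classical

variable {S X : Type} (nb : S → X → X)

/-- An infinite reduced path in the completion whose hairs have bounded length ends up in the roots, and
from then on follows edges of `X`.

Proof. (1) If step `t` lengthens the hair (the new head is `σ t`), then so does step `t + 1`, because
`σ (t + 1) ≠ σ t`; so the length would be unbounded: no step lengthens the hair. (2) So while the hair is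
nonempty each step uses its head letter; if it has length one and the step is the exceptional
sideways move then the next step lengthens the hair, which is impossible; so each step shortens the hair.
(3) When the hair is empty, the step does not lengthen it, so it follows an edge. -/
theorem hair_path (z : ℕ → X × RW S) (σ : ℕ → S) (N : ℕ)
    (hz : ∀ t, z (t + 1) = hairStep nb (σ t) (z t)) (hred : ∀ t, σ (t + 1) ≠ σ t)
    (hN : ∀ t, (z t).2.1.length ≤ N) :
    ∃ t₀, ∀ t, t₀ ≤ t → (z t).2 = RW.nil S ∧ nb (σ t) (z t).1 ≠ (z t).1 ∧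
      (z (t + 1)).1 = nb (σ t) (z t).1 := by
  have hz1 : ∀ t, (z (t + 1)).1 = (hairList nb (σ t) (z t).1 (z t).2.1).1 := fun t => by
    rw [hz t]; rfl
  have hz2 : ∀ t, (z (t + 1)).2.1 = (hairList nb (σ t) (z t).1 (z t).2.1).2 := fun t => by
    rw [hz t]; rfl
  have hA : ∀ t tl, (z (t + 1)).2.1 = σ t :: tl →
      (z (t + 2)).2.1 = σ (t + 1) :: (z (t + 1)).2.1 := by
    intro t tl h
    rw [hz2 (t + 1), h]
    cases tl with
    | nil => simp [hairList, (hred t).symm]
    | cons b v' => simp [hairList, (hred t).symm]
  have hB : ∀ t tl, (z (t + 1)).2.1 = σ t :: tl → ∀ k,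
      (∃ tl', (z (t + k + 1)).2.1 = σ (t + k) :: tl') ∧
        (z (t + k + 1)).2.1.length = (z (t + 1)).2.1.length + k := by
    intro t tl h k
    induction k with
    | zero => exact ⟨⟨tl, h⟩, rfl⟩
    | succ k ih =>
      obtain ⟨⟨tl', h'⟩, hl⟩ := ih
      have h3 := hA (t + k) tl' h'
      refine ⟨⟨_, h3⟩, ?_⟩
      rw [show t + (k + 1) + 1 = t + k + 2 by ring, h3, List.length_cons, hl]
      ring
  have hC : ∀ t tl, (z (t + 1)).2.1 ≠ σ t :: tl := by
    intro t tl h
    have h3 := (hB t tl h (N + 1)).2
    have h4 := hN (t + (N + 1) + 1)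
    omega
  have hD : ∀ t, (z (t + 1)).2.1.length = (z t).2.1.length - 1 ∧
      ((z t).2.1 = [] → nb (σ t) (z t).1 ≠ (z t).1 ∧ (z (t + 1)).1 = nb (σ t) (z t).1) := by
    intro t
    have h1 := hz1 t
    have h2 := hz2 t
    have hc := hC t
    rcases hl : (z t).2.1 with _ | ⟨a, _ | ⟨b, v'⟩⟩
    · rw [hl] at h1 h2
      by_cases hnb : nb (σ t) (z t).1 = (z t).1
      · simp only [hairList, hnb, if_true] at h2
        exact absurd h2 (hc _)
      · simp only [hairList, hnb, if_false] at h1 h2
        rw [h2]
        exact ⟨rfl, fun _ => ⟨hnb, h1⟩⟩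
    · rw [hl] at h1 h2
      by_cases ha : a = σ t
      · by_cases hnb : nb (σ t) (z t).1 = (z t).1
        · simp only [hairList, ha, hnb, if_true] at h2
          rw [h2]
          exact ⟨rfl, fun h => by simp at h⟩
        · simp only [hairList, ha, hnb, if_true, if_false] at h2
          exact absurd h2 (hc _)
      · simp only [hairList, ha, if_false] at h2
        exact absurd h2 (hc _)
    · rw [hl] at h1 h2
      by_cases ha : a = σ t
      · simp only [hairList, ha, if_true] at h2
        rw [h2]
        exact ⟨rfl, fun h => by simp at h⟩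
      · simp only [hairList, ha, if_false] at h2
        exact absurd h2 (hc _)
  have hE : ∀ t, (z t).2.1.length = (z 0).2.1.length - t := by
    intro t
    induction t with
    | zero => rfl
    | succ t ih => rw [(hD t).1, ih]; omega
  refine ⟨(z 0).2.1.length, fun t ht => ?_⟩
  have h0 : (z t).2.1 = [] := by
    apply List.eq_nil_of_length_eq_zero
    rw [hE t]; omega
  exact ⟨Subtype.ext h0, (hD t).2 h0⟩

end Vale.Agent.P090
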