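import Vale.Agent.P090.K.TowerPath

/-!
# Different levels of the tower have no common infinite reduced path (P090, Kalton problem)
-/

namespace Vale.Agent.P090

theorem no_common_path_lt {j k : ℕ} (hjk : j < k)
    (x : ℕ → (tower k).G) (x' : ℕ → (tower j).G) (s : ℕ → Fin 3)
    (hx : ∀ t, x (t + 1) = x t * (tower k).gen (s t))
    (hx' : ∀ t, x' (t + 1) = x' t * (tower j).gen (s t))
    (hred : ∀ t, s (t + 1) ≠ s t)
    (hlab : ∀ t, (tower k).lab (x t) (s t) = (tower j).lab (x' t) (s t)) : False := by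
  obtain ⟨m, rfl⟩ : ∃ m, k = m + 1 := ⟨k - 1, by omega⟩
  exact no_common_path_next (tower m) (tower j)
    (fun w hw => tower_ev_mono (by omega : j ≤ m) hw) x x' s hx hx' hred hlab

theorem no_common_path {j k : ℕ} (hjk : j ≠ k)
    (x : ℕ → (tower k).G) (x' : ℕ → (tower j).G) (s : ℕ → Fin 3)
    (hx : ∀ t, x (t + 1) = x t * (tower k).gen (s t))
    (hx' : ∀ t, x' (t + 1) = x' t * (tower j).gen (s t))
    (hred : ∀ t, s (t + 1) ≠ s t)
    (hlab : ∀ t, (tower k).lab (x t) (s t) = (tower j).lab (x' t) (s t)) : False := by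
  rcases Nat.lt_or_gt_of_ne hjk with h | h
  · exact no_common_path_lt h x x' s hx hx' hred hlab
  · exact no_common_path_lt h x' x s hx' hx hred (fun t => (hlab t).symm)

end Vale.Agent.P090
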