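import Vale.Agent.P090.K.Concrete
import Vale.Agent.P090.K.TowerPath2
import Vale.Agent.P090.K.HairPath

/-!
# Test graphs in the concrete frames (P090, Kalton problem)
-/

namespace Vale.Agent.P090

open Classical

theorem kNb_some_of_ne {σ : Lab} {j : ℕ} {g : (tower j).G}
    (h : kNb σ (some ⟨j, g⟩) ≠ some ⟨j, g⟩) :
    (tower j).lab g σ.1 = σ ∧ kNb σ (some ⟨j, g⟩) = some ⟨j, g * (tower j).gen σ.1⟩ := by
  by_cases hc : (tower j).lab g σ.1 = σ
  · exact ⟨hc, by simp only [kNb, if_pos hc]⟩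
  · exact absurd (by simp only [kNb, if_neg hc]) h

theorem kNb_lab (k : ℕ) (y : (tower k).G) (s : Fin 3) :
    kNb ((tower k).lab y s) (some ⟨k, y⟩) = some ⟨k, y * (tower k).gen s⟩ := by
  have h1 : ((tower k).lab y s).1 = s := (tower k).lab_fst y s
  have hc : (tower k).lab y ((tower k).lab y s).1 = (tower k).lab y s := by rw [h1]
  simp only [kNb, h1, if_true]

theorem exists_of_kIdx_eq {x : KX} {j : ℕ} (h : kIdx x = some j) :
    ∃ g : (tower j).G, x = some ⟨j, g⟩ := by
  rcases x with _ | ⟨i, g⟩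
  · simp [kIdx] at h
  · simp only [kIdx, Option.some.injEq] at h
    subst h
    exact ⟨g, rfl⟩

/-- The combinatorial heart of `kFrame_test`. -/
theorem kPath_false (k N : ℕ) (y : ℕ → (tower k).G) (z : ℕ → KX × RW Lab) (s : ℕ → Fin 3)
    (hlen : ∀ t, (z t).2.1.length ≤ N) (hidx : ∀ t, kIdx (z t).1 ≠ some k)
    (hy : ∀ t, y (t + 1) = y t * (tower k).gen (s t))
    (hz : ∀ t, z (t + 1) = hairStep kNb ((tower k).lab (y t) (s t)) (z t))
    (hred : ∀ t, s (t + 1) ≠ s t) : False := by
  set σ : ℕ → Lab := fun t => (tower k).lab (y t) (s t) with hσ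
  have hσ1 : ∀ t, (σ t).1 = s t := fun t => (tower k).lab_fst (y t) (s t)
  have hσred : ∀ t, σ (t + 1) ≠ σ t := fun t h => hred t (by rw [← hσ1, ← hσ1, h])
  obtain ⟨t₀, ht₀⟩ := hair_path kNb z σ N hz hσred hlen
  -- the level of the path
  have hne : (z t₀).1 ≠ none := by
    intro h
    have := (ht₀ t₀ le_rfl).2.1
    rw [h] at this
    exact this rfl
  obtain ⟨⟨j, g₀⟩, hg₀⟩ := Option.ne_none_iff_exists'.1 hne
  have hj : ∀ t, kIdx (z (t₀ + t)).1 = some j := by
    intro t
    induction t with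
    | zero => rw [Nat.add_zero, hg₀]; rfl
    | succ t ih =>
      have := (ht₀ (t₀ + t) (Nat.le_add_right _ _)).2.2
      rw [← Nat.add_assoc, this, kIdx_kNb, ih]
  have hjk : j ≠ k := by
    intro h
    exact hidx (t₀ + 0) (by rw [hj 0, h])
  choose g hg using fun t => exists_of_kIdx_eq (hj t)
  have hstep : ∀ t, (tower j).lab (g t) (s (t₀ + t)) = σ (t₀ + t) ∧
      g (t + 1) = g t * (tower j).gen (s (t₀ + t)) := by
    intro t
    obtain ⟨-, h2, h3⟩ := ht₀ (t₀ + t) (Nat.le_add_right _ _)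
    rw [hg t] at h2 h3
    obtain ⟨h4, h5⟩ := kNb_some_of_ne h2
    rw [hσ1] at h4 h5
    refine ⟨h4, ?_⟩
    have h6 : (z (t₀ + (t + 1))).1 = some ⟨j, g t * (tower j).gen (s (t₀ + t))⟩ := by
      rw [← Nat.add_assoc, h3, h5]
    rw [hg (t + 1)] at h6
    have h7 := Option.some.inj h6
    exact eq_of_heq (Sigma.mk.inj_iff.1 h7).2
  refine no_common_path hjk (fun t => y (t₀ + t)) g (fun t => s (t₀ + t)) ?_ ?_ ?_ ?_
  · intro t
    exact hy (t₀ + t)
  · intro t
    exact (hstep t).2
  · intro t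
    exact hred (t₀ + t)
  · intro t
    exact ((hstep t).1).symm

/-- For every finite set `Φ` of points, a level `k` of the tower which does not meet `Φ` gives a test graph. -/
theorem kFrame_test (n : ℕ) (Φ : Finset (kFrame n).Pt) : Nonempty ((kFrame n).TestGraph Φ) := by
  obtain ⟨k, hk⟩ := Infinite.exists_notMem_finset
    (Φ.image (fun w : (kFrame n).Pt => kIdx w.1)).eraseNone
  have hk' : ∀ w ∈ Φ, kIdx w.1 ≠ some k := by
    intro w hw h
    apply hk
    rw [Finset.mem_eraseNone, Finset.mem_image]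
    exact ⟨w, hw, h⟩
  let _ : Fintype (tower k).G := Fintype.ofFinite _
  refine ⟨{ Y := (tower k).G
            i := fun y => some ⟨k, y⟩
            lab := (tower k).lab
            nbY := fun s y => y * (tower k).gen s
            nbY_nbY := ?_
            lab_nbY := ?_
            step := ?_
            no_path := ?_ }⟩
  · intro s y
    rw [mul_assoc, (tower k).gen_sq, mul_one]
  · intro s y
    exact (tower k).lab_symm y s
  · intro s y
    have h1 := kNb_lab k y s
    have h2 : kNb ((tower k).lab y s) (some ⟨k, y⟩) ≠ some ⟨k, y⟩ := by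
      rw [h1]
      intro h
      have h3 := eq_of_heq (Sigma.mk.inj_iff.1 (Option.some.inj h)).2
      exact (tower k).gen_ne_one s (mul_eq_left.1 h3)
    have h4 := hairStep_root_of_ne kNb h2
    rw [h1] at h4
    exact h4.symm
  · rintro ⟨y, z, s, hzr, hy, hz, hred⟩
    refine kPath_false k (kW n) y z s ?_ ?_ hy hz hred
    · intro t
      obtain ⟨w, -, u, hu, hw⟩ := hzr t
      have h1 := length_actW_hairStep_le kNb u (w.1, RW.nil Lab)
      have h2 : actW (hairStep kNb) u (w.1, RW.nil Lab) = z t := hw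
      rw [h2] at h1
      have h3 : (RW.nil Lab).1.length = 0 := rfl
      have h4 : u.length < kW n := hu
      have h5 : (z t).2.1.length ≤ (RW.nil Lab).1.length + u.length := h1
      rw [h3] at h5
      exact le_trans h5 (by rw [Nat.zero_add]; exact h4.le)
    · intro t
      obtain ⟨w, hwΦ, u, -, hw⟩ := hzr t
      have h1 := actW_hairStep_invariant kNb kIdx kIdx_kNb u (w.1, RW.nil Lab)
      have h2 : actW (hairStep kNb) u (w.1, RW.nil Lab) = z t := hw
      rw [h2] at h1
      rw [h1]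
      exact hk' w hwΦ

theorem kFrame_no_approxData (n : ℕ) :
    ¬ ApproxData (kFrame n).Pt (n : ℝ) 1 (kFrame n).terminals :=
  (kFrame n).no_approxData (Nat.cast_nonneg n) zero_le_one (kFrame_small n) (kFrame_test n)

end Vale.Agent.P090
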