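import Vale.Agent.P090.K.Forest

/-!
# The forest inequality (P090, Kalton problem)

`V` is a set with three involutions `nb s` (a cubic graph with slots `s : Fin 3`).
-/

namespace Vale.Agent.P090

section Counting

variable {V : Type*} (nb : Fin 3 → V → V)

/-- If `B` is not degenerate, there is an infinite reduced path inside `B`. -/
theorem degenerate_of_no_path (B : Finset V)
    (hno : ¬ ∃ (v : ℕ → V) (s : ℕ → Fin 3), (∀ t, v t ∈ B) ∧ (∀ t, v (t + 1) = nb (s t) (v t)) ∧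
      ∀ t, s (t + 1) ≠ s t) :
    Degenerate nb B := by
  by_contra hdeg
  apply hno
  unfold Degenerate at hdeg
  push Not at hdeg
  obtain ⟨B', hB'B, ⟨v0, hv0⟩, hB'⟩ := hdeg
  -- one step
  have hstep : ∀ x : {v // v ∈ B'} × Fin 3, ∃ y : {v // v ∈ B'} × Fin 3,
      y.1.1 = nb y.2 x.1.1 ∧ y.2 ≠ x.2 := by
    rintro ⟨⟨v, hv⟩, l⟩
    obtain ⟨s, s', hs, hs', hne⟩ := hB' v hv
    by_cases h : s = l
    · refine ⟨(⟨nb s' v, hs'⟩, s'), rfl, ?_⟩
      intro h'
      exact hne (h.trans h'.symm)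
    · exact ⟨(⟨nb s v, hs⟩, s), rfl, h⟩
  choose f hf1 hf2 using hstep
  let x : ℕ → {v // v ∈ B'} × Fin 3 := fun n => Nat.rec (⟨v0, hv0⟩, 0) (fun _ y => f y) n
  have hx : ∀ n, x (n + 1) = f (x n) := fun n => rfl
  refine ⟨fun n => (x n).1.1, fun n => (x (n + 1)).2, ?_, ?_, ?_⟩
  · intro t
    exact hB'B (x t).1.2
  · intro t
    show (x (t + 1)).1.1 = nb (x (t + 1)).2 (x t).1.1
    rw [hx t]
    exact hf1 (x t)
  · intro t
    show (x (t + 1 + 1)).2 ≠ (x (t + 1)).2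
    rw [hx (t + 1)]
    exact hf2 (x (t + 1))

end Counting

end Vale.Agent.P090
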