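import Vale.Agent.P090.Basic

/-!
# From the bounded approximation property to approximation data (P090, Kalton problem)
-/

namespace Vale.Agent.P090

/-- Approximation data on a metric space `P`: a finite set `Φ` and real measures `μ z` on `Φ` of
total mass `1`, depending on `z : P` in an almost `lam`-Lipschitz way (tested against Lipschitz
functions), and almost equal to the Dirac mass at `e` near each `e ∈ E`. -/
def ApproxData (P : Type*) [MetricSpace P] (lam η : ℝ) (E : Finset P) : Prop :=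
  ∃ (Φ : Finset P) (μ : P → P → ℝ),
    (∀ z, ∑ w ∈ Φ, μ z w = 1) ∧
    (∀ z z' (f : P → ℝ) (K : ℝ), 0 ≤ K → (∀ a b, |f a - f b| ≤ K * dist a b) →
      |∑ w ∈ Φ, μ z w * f w - ∑ w ∈ Φ, μ z' w * f w| ≤ K * (lam * dist z z' + η)) ∧
    (∀ z, ∀ e ∈ E, ∀ (f : P → ℝ) (K : ℝ), 0 ≤ K → (∀ a b, |f a - f b| ≤ K * dist a b) →
      |∑ w ∈ Φ, μ z w * f w - f e| ≤ K * (lam * dist z e + η))

theorem HasBAP.mono {X : Type*} [NormedAddCommGroup X] [NormedSpace ℝ X] {lam lam' : ℝ}
    (h : HasBAP lam X) (hl : lam ≤ lam') : HasBAP lam' X := by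
  intro C hC ε hε
  obtain ⟨T, h1, h2, h3⟩ := h C hC ε hε
  exact ⟨T, h1, h2.trans hl, h3⟩

/-- The functional analytic part, for a closed span in a general normed space. -/
theorem extract_abstract {D : Type*} [NormedAddCommGroup D] [NormedSpace ℝ D] {ι J : Type*}
    (d : ι → D) {lam : ℝ}
    (h : HasBAP lam (Submodule.span ℝ (Set.range d)).topologicalClosure)
    (u : J → ι) (B : ℝ) (hB : ∀ z, ‖d (u z)‖ ≤ B) (E : Finset J) {η : ℝ} (hη : 0 < η) :
    ∃ (Φ₀ : Finset ι) (c : J → ι →₀ ℝ), (∀ z, (c z).support ⊆ Φ₀) ∧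
      (∀ z z', ‖(c z).sum (fun i a => a • d i) - (c z').sum (fun i a => a • d i)‖
        ≤ lam * ‖d (u z) - d (u z')‖ + η) ∧
      (∀ z, ∀ e ∈ E, ‖(c z).sum (fun i a => a • d i) - d (u e)‖
        ≤ lam * ‖d (u z) - d (u e)‖ + η) := by
  classical
  set V := (Submodule.span ℝ (Set.range d)).topologicalClosure with hV
  let dV : ι → V := fun i =>
    ⟨d i, Submodule.le_topologicalClosure _ (Submodule.subset_span ⟨i, rfl⟩)⟩
  have hCcompact : IsCompact ((fun e => dV (u e)) '' (E : Set J)) :=
    (E.finite_toSet.image _).isCompact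
  obtain ⟨T, hTfin, hTn, η', hη', hT⟩ := h _ hCcompact (η / 3) (by positivity)
  let W := LinearMap.range (T : V →ₗ[ℝ] V)
  have : FiniteDimensional ℝ W := hTfin
  have : ProperSpace W := FiniteDimensional.proper_real W
  have hK : IsCompact ((Subtype.val : W → V) '' Metric.closedBall (0 : W) (‖T‖ * B)) :=
    (isCompact_closedBall _ _).image continuous_subtype_val
  obtain ⟨t, -, htfin, hcover⟩ := hK.finite_cover_balls (e := η / 6) (by positivity)
  have happrox : ∀ v : V, ∃ c : ι →₀ ℝ, ‖(v : D) - c.sum (fun i a => a • d i)‖ < η / 6 := by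
    intro v
    have hv : (v : D) ∈ closure ((Submodule.span ℝ (Set.range d) : Submodule ℝ D) : Set D) := v.2
    obtain ⟨w, hw, hvw⟩ := Metric.mem_closure_iff.1 hv (η / 6) (by positivity)
    obtain ⟨c, rfl⟩ := Finsupp.mem_span_range_iff_exists_finsupp.1 hw
    exact ⟨c, by rwa [dist_eq_norm] at hvw⟩
  choose c hc using happrox
  have hsel : ∀ z, ∃ y ∈ t, ‖T (dV (u z)) - y‖ < η / 6 := by
    intro z
    have hmem : T (dV (u z)) ∈ (Subtype.val : W → V) '' Metric.closedBall (0 : W) (‖T‖ * B) := by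
      refine ⟨⟨T (dV (u z)), LinearMap.mem_range_self _ _⟩, ?_, rfl⟩
      rw [mem_closedBall_zero_iff]
      have h1 : ‖T (dV (u z))‖ ≤ ‖T‖ * ‖dV (u z)‖ := T.le_opNorm _
      have h2 : ‖T‖ * ‖dV (u z)‖ ≤ ‖T‖ * B :=
        mul_le_mul_of_nonneg_left (hB z) (norm_nonneg _)
      exact h1.trans h2
    have := hcover hmem
    simp only [Set.mem_iUnion, Metric.mem_ball, exists_prop] at this
    obtain ⟨y, hy, hd⟩ := this
    exact ⟨y, hy, by rwa [dist_eq_norm] at hd⟩
  choose y hyt hy using hsel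
  have hz : ∀ z, ‖((T (dV (u z)) : V) : D) - (c (y z)).sum (fun i a => a • d i)‖ ≤ η / 3 := by
    intro z
    have h1 : ‖((T (dV (u z)) : V) : D) - ((y z : V) : D)‖ < η / 6 := hy z
    have h2 := hc (y z)
    calc ‖((T (dV (u z)) : V) : D) - (c (y z)).sum (fun i a => a • d i)‖
        = ‖(((T (dV (u z)) : V) : D) - ((y z : V) : D))
            + (((y z : V) : D) - (c (y z)).sum (fun i a => a • d i))‖ := by congr 1; abel
      _ ≤ ‖((T (dV (u z)) : V) : D) - ((y z : V) : D)‖
            + ‖((y z : V) : D) - (c (y z)).sum (fun i a => a • d i)‖ := norm_add_le _ _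
      _ ≤ η / 3 := by linarith
  have hTd : ∀ a b : ι, ‖((T (dV a) : V) : D) - ((T (dV b) : V) : D)‖ ≤ lam * ‖d a - d b‖ := by
    intro a b
    have h1 : ‖T (dV a - dV b)‖ ≤ ‖T‖ * ‖dV a - dV b‖ := T.le_opNorm _
    have h2 : ‖T‖ * ‖dV a - dV b‖ ≤ lam * ‖dV a - dV b‖ :=
      mul_le_mul_of_nonneg_right hTn (norm_nonneg _)
    rw [map_sub] at h1
    exact h1.trans h2
  refine ⟨htfin.toFinset.biUnion (fun v => (c v).support), fun z => c (y z), ?_, ?_, ?_⟩
  · intro z i hi
    rw [Finset.mem_biUnion]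
    exact ⟨y z, htfin.mem_toFinset.2 (hyt z), hi⟩
  · intro z z'
    have h1 := hz z
    have h2 := hz z'
    have h3 := hTd (u z) (u z')
    rw [norm_sub_rev] at h1
    calc ‖(c (y z)).sum (fun i a => a • d i) - (c (y z')).sum (fun i a => a • d i)‖
        = ‖((c (y z)).sum (fun i a => a • d i) - ((T (dV (u z)) : V) : D))
            + (((T (dV (u z)) : V) : D) - ((T (dV (u z')) : V) : D))
            + (((T (dV (u z')) : V) : D) - (c (y z')).sum (fun i a => a • d i))‖ := by
          congr 1; abel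
      _ ≤ ‖(c (y z)).sum (fun i a => a • d i) - ((T (dV (u z)) : V) : D)‖
            + ‖((T (dV (u z)) : V) : D) - ((T (dV (u z')) : V) : D)‖
            + ‖((T (dV (u z')) : V) : D) - (c (y z')).sum (fun i a => a • d i)‖ :=
          norm_add₃_le
      _ ≤ lam * ‖d (u z) - d (u z')‖ + η := by linarith
  · intro z e he
    have h1 := hz z
    have h3 := hTd (u z) (u e)
    have h4 : ‖((T (dV (u e)) : V) : D) - d (u e)‖ ≤ η' :=
      hT (dV (u e)) ⟨e, he, rfl⟩
    rw [norm_sub_rev] at h1
    calc ‖(c (y z)).sum (fun i a => a • d i) - d (u e)‖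
        = ‖((c (y z)).sum (fun i a => a • d i) - ((T (dV (u z)) : V) : D))
            + (((T (dV (u z)) : V) : D) - ((T (dV (u e)) : V) : D))
            + (((T (dV (u e)) : V) : D) - d (u e))‖ := by
          congr 1; abel
      _ ≤ ‖(c (y z)).sum (fun i a => a • d i) - ((T (dV (u z)) : V) : D)‖
            + ‖((T (dV (u z)) : V) : D) - ((T (dV (u e)) : V) : D)‖
            + ‖((T (dV (u e)) : V) : D) - d (u e)‖ :=
          norm_add₃_le
      _ ≤ lam * ‖d (u z) - d (u e)‖ + η := by linarith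

theorem norm_delta_sub_le {M : Type*} [MetricSpace M] {o : M} (x y : M) :
    ‖(delta x : StrongDual ℝ (Lip0 M o)) - delta y‖ ≤ dist x y := by
  refine ContinuousLinearMap.opNorm_le_bound _ dist_nonneg fun f => ?_
  have h := f.abs_sub_le x y
  rw [mul_comm] at h
  exact h

theorem delta_base {M : Type*} [MetricSpace M] {o : M} :
    (delta o : StrongDual ℝ (Lip0 M o)) = 0 := by
  ext f
  simp

/-- If `P` is a bounded `1`-Lipschitz retract of `M` and the free space of `M` has the `lam`-BAP then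
`P` carries approximation data for every finite `E` and every `η > 0`.

Proof sketch. Let `d z` be `delta z` as an element of `freeSpace M o`; `‖d z - d z'‖ ≤ dist z z'`.
Apply the BAP to the finite (hence compact) set of all `d (ι e)`, `e ∈ E`, and `ε = η / 3`: this gives `T`.
The set of all `T (d (ι z))`, `z : P`, is bounded (`P` is bounded) and lies in the finite dimensional range
of `T`, hence is totally bounded; cover it by finitely many balls of radius `η / 6`, and approximate
each centre up to `η / 6` by a finite combination of evaluations (`Metric.mem_closure_iff` and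
`Finsupp.mem_span_range_iff_exists_finsupp`, as in `hasBAP_closedSpan` of `Criterion.lean`).
So there are a finite `Φ₀ ⊆ M` (containing `o`) and coefficients `c z w` with
`‖T (d (ι z)) - ∑ w ∈ Φ₀, c z w • delta w‖ ≤ η / 3`. Put `μ₀ z w = c z w + (1 - ∑ c z) * [w = o]`
(total mass one; this does not change the functional since `delta o = 0`), and push forward by `r`:
`Φ = Φ₀.image r`, `μ z w' = ∑ w ∈ Φ₀ with r w = w', μ₀ z w` (`Finset.sum_fiberwise_of_maps_to`).
For `f : P → ℝ` with constant `K`, the function `g = f ∘ r - f (r o)` is in `Lip0 M o` with norm `≤ K` and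
`∑ w' ∈ Φ, μ z w' * f w' = (∑ w ∈ Φ₀, c z w • delta w) g + f (r o)`, `f e = delta (ι e) g + f (r o)`.
Note the instance problem mentioned in `Criterion.lean`: it may help to prove the functional analytic part for
a closed span in a general normed space `D` first. -/
theorem approxData_of_hasBAP {M P : Type*} [MetricSpace M] [MetricSpace P] {o : M} {lam : ℝ}
    (h : HasBAP lam (freeSpace M o)) (ι : P → M) (r : M → P)
    (hι : ∀ a b, dist (ι a) (ι b) = dist a b) (hr : ∀ a b, dist (r a) (r b) ≤ dist a b)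
    (hrι : ∀ a, r (ι a) = a) (R : ℝ) (hR : ∀ a b : P, dist a b ≤ R) (E : Finset P) {η : ℝ}
    (hη : 0 < η) : ApproxData P lam η E := by
  classical
  rcases isEmpty_or_nonempty P with hP | ⟨⟨z₀⟩⟩
  · exact ⟨∅, fun _ _ => 0, fun z => (hP.false z).elim, fun z => (hP.false z).elim,
      fun z => (hP.false z).elim⟩
  have hlam : 0 ≤ lam := by
    obtain ⟨T, -, hT, -⟩ := h ∅ isCompact_empty 1 one_pos
    exact (norm_nonneg T).trans hT
  have h' : HasBAP lam (Submodule.span ℝ
      (Set.range (delta : M → StrongDual ℝ (Lip0 M o)))).topologicalClosure := h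
  have hB : ∀ z : P, ‖(delta (ι z) : StrongDual ℝ (Lip0 M o))‖ ≤ R + dist (ι z₀) o := by
    intro z
    have h1 := norm_delta_sub_le (o := o) (ι z) o
    rw [delta_base, sub_zero] at h1
    have h2 : dist (ι z) o ≤ dist (ι z) (ι z₀) + dist (ι z₀) o := dist_triangle _ _ _
    have h3 : dist (ι z) (ι z₀) ≤ R := by rw [hι]; exact hR z z₀
    linarith
  obtain ⟨Φ₀, c, hsupp, hA, hBd⟩ := extract_abstract
    (delta : M → StrongDual ℝ (Lip0 M o)) h' ι _ hB E hη
  set Φ₁ : Finset M := insert o Φ₀ with hΦ₁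
  have hoΦ : o ∈ Φ₁ := Finset.mem_insert_self _ _
  -- the functional `a z`
  have haz : ∀ (z : P) (g : Lip0 M o),
      ((c z).sum (fun i a => a • (delta i : StrongDual ℝ (Lip0 M o)))) g
        = ∑ w ∈ Φ₁, c z w * g w := by
    intro z g
    rw [Finsupp.sum_of_support_subset (c z) (s := Φ₁)
      ((hsupp z).trans (Finset.subset_insert o Φ₀)) _ (fun i _ => by simp)]
    simp
  let μ₀ : P → M → ℝ := fun z w => c z w + (1 - ∑ v ∈ Φ₁, c z v) * (if w = o then 1 else 0)
  have hμ₀ : ∀ (z : P) (F : M → ℝ), ∑ w ∈ Φ₁, μ₀ z w * F w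
      = ∑ w ∈ Φ₁, c z w * F w + (1 - ∑ v ∈ Φ₁, c z v) * F o := by
    intro z F
    have e : ∀ w ∈ Φ₁, μ₀ z w * F w
        = c z w * F w + (if w = o then (1 - ∑ v ∈ Φ₁, c z v) * F o else 0) := by
      intro w _
      by_cases hw : w = o
      · subst hw
        simp only [μ₀, if_true]
        ring
      · simp only [μ₀, if_neg hw]
        ring
    rw [Finset.sum_congr rfl e, Finset.sum_add_distrib, Finset.sum_ite_eq' Φ₁ o, if_pos hoΦ]
  let μ : P → P → ℝ := fun z w' => ∑ w ∈ Φ₁ with r w = w', μ₀ z w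
  have hμ : ∀ (z : P) (f : P → ℝ), ∑ w' ∈ Φ₁.image r, μ z w' * f w'
      = ∑ w ∈ Φ₁, μ₀ z w * f (r w) := by
    intro z f
    rw [← Finset.sum_fiberwise_of_maps_to (g := r) (t := Φ₁.image r)
      (fun i hi => Finset.mem_image_of_mem r hi)]
    refine Finset.sum_congr rfl fun w' _ => ?_
    simp only [μ]
    rw [Finset.sum_mul]
    refine Finset.sum_congr rfl fun w hw => ?_
    rw [(Finset.mem_filter.mp hw).2]
  -- the test function on `M`
  have hkey : ∀ (f : P → ℝ) (K : ℝ), 0 ≤ K → (∀ a b, |f a - f b| ≤ K * dist a b) →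
      ∃ g : Lip0 M o, ‖g‖ ≤ K ∧ (∀ x, g x = f (r x) - f (r o)) ∧
        ∀ z, ∑ w' ∈ Φ₁.image r, μ z w' * f w'
          = ((c z).sum (fun i a => a • (delta i : StrongDual ℝ (Lip0 M o)))) g + f (r o) := by
    intro f K hK hf
    have hLip : ∀ x y : M, |(f (r x) - f (r o)) - (f (r y) - f (r o))| ≤ K * dist x y := by
      intro x y
      have h1 := hf (r x) (r y)
      have h2 : K * dist (r x) (r y) ≤ K * dist x y := mul_le_mul_of_nonneg_left (hr x y) hK
      have e : (f (r x) - f (r o)) - (f (r y) - f (r o)) = f (r x) - f (r y) := by ring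
      rw [e]
      exact h1.trans h2
    refine ⟨Lip0.mk' (fun x => f (r x) - f (r o)) (by simp) K hLip,
      Lip0.norm_le _ hK hLip, fun x => rfl, fun z => ?_⟩
    rw [hμ, haz, hμ₀]
    simp only [Lip0.mk'_apply]
    have e : ∑ w ∈ Φ₁, c z w * (f (r w) - f (r o))
        = ∑ w ∈ Φ₁, c z w * f (r w) - (∑ w ∈ Φ₁, c z w) * f (r o) := by
      rw [Finset.sum_mul, ← Finset.sum_sub_distrib]
      exact Finset.sum_congr rfl fun w _ => by ring
    rw [e]
    ring
  refine ⟨Φ₁.image r, μ, ?_, ?_, ?_⟩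
  · intro z
    have h1 := hμ z (fun _ => 1)
    have h2 := hμ₀ z (fun _ => 1)
    simp only [mul_one] at h1 h2
    rw [h1, h2]
    ring
  · intro z z' f K hK hf
    obtain ⟨g, hg, -, hI⟩ := hkey f K hK hf
    rw [hI z, hI z']
    have e : ((c z).sum (fun i a => a • (delta i : StrongDual ℝ (Lip0 M o)))) g + f (r o)
        - (((c z').sum (fun i a => a • (delta i : StrongDual ℝ (Lip0 M o)))) g + f (r o))
        = ((c z).sum (fun i a => a • (delta i : StrongDual ℝ (Lip0 M o)))
          - (c z').sum (fun i a => a • (delta i : StrongDual ℝ (Lip0 M o)))) g := by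
      rw [sub_apply]
      ring
    rw [e]
    have h1 := ContinuousLinearMap.le_opNorm
      ((c z).sum (fun i a => a • (delta i : StrongDual ℝ (Lip0 M o)))
          - (c z').sum (fun i a => a • (delta i : StrongDual ℝ (Lip0 M o)))) g
    rw [Real.norm_eq_abs] at h1
    have h2 := hA z z'
    have h3 : ‖(delta (ι z) : StrongDual ℝ (Lip0 M o)) - delta (ι z')‖ ≤ dist z z' := by
      rw [← hι]
      exact norm_delta_sub_le _ _
    have h4 : lam * ‖(delta (ι z) : StrongDual ℝ (Lip0 M o)) - delta (ι z')‖ + η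
        ≤ lam * dist z z' + η := by
      have := mul_le_mul_of_nonneg_left h3 hlam
      linarith
    have h5 : 0 ≤ lam * dist z z' + η := by positivity
    calc _ ≤ _ := h1
      _ ≤ (lam * dist z z' + η) * K :=
          mul_le_mul (h2.trans h4) hg (norm_nonneg _) h5
      _ = K * (lam * dist z z' + η) := mul_comm _ _
  · intro z e he f K hK hf
    obtain ⟨g, hg, hgx, hI⟩ := hkey f K hK hf
    rw [hI z]
    have e1 : f e = (delta (ι e) : StrongDual ℝ (Lip0 M o)) g + f (r o) := by
      rw [delta_apply, hgx, hrι]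
      ring
    have e2 : ((c z).sum (fun i a => a • (delta i : StrongDual ℝ (Lip0 M o)))) g + f (r o) - f e
        = ((c z).sum (fun i a => a • (delta i : StrongDual ℝ (Lip0 M o)))
          - (delta (ι e) : StrongDual ℝ (Lip0 M o))) g := by
      rw [sub_apply, e1]
      ring
    rw [e2]
    have h1 := ContinuousLinearMap.le_opNorm
      ((c z).sum (fun i a => a • (delta i : StrongDual ℝ (Lip0 M o)))
        - (delta (ι e) : StrongDual ℝ (Lip0 M o))) g
    rw [Real.norm_eq_abs] at h1
    have h2 := hBd z e he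
    have h3 : ‖(delta (ι z) : StrongDual ℝ (Lip0 M o)) - delta (ι e)‖ ≤ dist z e := by
      rw [← hι]
      exact norm_delta_sub_le _ _
    have h4 : lam * ‖(delta (ι z) : StrongDual ℝ (Lip0 M o)) - delta (ι e)‖ + η
        ≤ lam * dist z e + η := by
      have := mul_le_mul_of_nonneg_left h3 hlam
      linarith
    have h5 : 0 ≤ lam * dist z e + η := by positivity
    calc _ ≤ _ := h1
      _ ≤ (lam * dist z e + η) * K :=
          mul_le_mul (h2.trans h4) hg (norm_nonneg _) h5
      _ = K * (lam * dist z e + η) := mul_comm _ _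

end Vale.Agent.P090
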