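import Mathlib

/-!
# The forest inequality (P090, Kalton problem)

`V` is a set with three involutions `nb s` (a cubic graph with slots `s : Fin 3`).
-/

namespace Vale.Agent.P090

section Counting

variable {V : Type*} (nb : Fin 3 → V → V)

/-- A finite set `B` of vertices is degenerate if each nonempty subset `B'` has a vertex with at
most one slot leading into `B'` (that is, `B` spans a forest). -/
def Degenerate (B : Finset V) : Prop :=
  ∀ B' : Finset V, B' ⊆ B → B'.Nonempty →
    ∃ v ∈ B', ∀ s s' : Fin 3, nb s v ∈ B' → nb s' v ∈ B' → s = s'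

theorem forest_ineq_aux (hnb : ∀ s v, nb s (nb s v) = v) : ∀ (n : ℕ) (B : Finset V) (a : V → ℝ),
    B.card = n → (∀ v, 0 ≤ a v) → (∀ v, v ∉ B → a v = 0) → Degenerate nb B →
    ∑ v ∈ B, a v ≤ ∑ v ∈ B, ∑ s : Fin 3, |a v - a (nb s v)| := by
  classical
  intro n
  induction n with
  | zero =>
    intro B a hc _ _ _
    rw [Finset.card_eq_zero.mp hc]
    simp
  | succ n ih =>
    intro B a hc ha hB hdeg
    have hne : B.Nonempty := Finset.card_pos.mp (by omega)
    obtain ⟨v0, hv0, hslot⟩ := hdeg B (Finset.Subset.refl _) hne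
    have hc1 : (B.erase v0).card = n := by rw [Finset.card_erase_of_mem hv0, hc]; rfl
    have hup : ∀ v, v ≠ v0 → Function.update a v0 0 v = a v := fun v hv =>
      Function.update_of_ne hv _ _
    have hup0 : Function.update a v0 0 v0 = 0 := Function.update_self _ _ _
    have ha' : ∀ v, 0 ≤ Function.update a v0 0 v := by
      intro v
      by_cases h : v = v0
      · rw [h, hup0]
      · rw [hup v h]; exact ha v
    have hB' : ∀ v, v ∉ B.erase v0 → Function.update a v0 0 v = 0 := by
      intro v hv
      by_cases h : v = v0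
      · rw [h, hup0]
      · rw [hup v h]
        exact hB v (fun hvB => hv (Finset.mem_erase.mpr ⟨h, hvB⟩))
    have hdeg' : Degenerate nb (B.erase v0) := fun B' hB1 hne' =>
      hdeg B' (hB1.trans (Finset.erase_subset _ _)) hne'
    have IH := ih (B.erase v0) (Function.update a v0 0) hc1 ha' hB' hdeg'
    have hsumL : ∑ v ∈ B, a v = a v0 + ∑ v ∈ B.erase v0, Function.update a v0 0 v := by
      rw [← Finset.add_sum_erase B a hv0]
      congr 1
      apply Finset.sum_congr rfl
      intro v hv
      rw [hup v (Finset.ne_of_mem_erase hv)]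
    have hsumR : ∑ v ∈ B, ∑ s : Fin 3, |a v - a (nb s v)|
        = ∑ s : Fin 3, |a v0 - a (nb s v0)|
          + ∑ v ∈ B.erase v0, ∑ s : Fin 3, |a v - a (nb s v)| :=
      (Finset.add_sum_erase B (fun v => ∑ s : Fin 3, |a v - a (nb s v)|) hv0).symm
    have hpt : ∀ v ∈ B.erase v0, ∀ s : Fin 3, |a v - a (nb s v)|
        = |Function.update a v0 0 v - Function.update a v0 0 (nb s v)|
          + (if v = nb s v0 then |a v - a v0| - a v else 0) := by
      intro v hv s
      have hvne : v ≠ v0 := Finset.ne_of_mem_erase hv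
      rw [hup v hvne]
      by_cases h : v = nb s v0
      · have h2 : nb s v = v0 := by rw [h, hnb]
        rw [if_pos h, h2, hup0, sub_zero, abs_of_nonneg (ha v)]
        ring
      · have h2 : nb s v ≠ v0 := fun h' => h (by rw [← h', hnb])
        rw [if_neg h, hup _ h2, add_zero]
    have hsum2 : ∑ v ∈ B.erase v0, ∑ s : Fin 3, |a v - a (nb s v)|
        = ∑ v ∈ B.erase v0, ∑ s : Fin 3,
            |Function.update a v0 0 v - Function.update a v0 0 (nb s v)|
          + ∑ s : Fin 3, (if nb s v0 ∈ B.erase v0 then |a (nb s v0) - a v0| - a (nb s v0)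
              else 0) := by
      rw [Finset.sum_congr rfl (fun v hv => Finset.sum_congr rfl (fun s _ => hpt v hv s))]
      simp only [Finset.sum_add_distrib]
      congr 1
      rw [Finset.sum_comm]
      apply Finset.sum_congr rfl
      intro s _
      rw [Finset.sum_ite_eq']
    have hA : ∀ s : Fin 3, nb s v0 ∉ B → a v0 ≤ |a v0 - a (nb s v0)|
        + (if nb s v0 ∈ B.erase v0 then |a (nb s v0) - a v0| - a (nb s v0) else 0) := by
      intro s hs
      have h1 : nb s v0 ∉ B.erase v0 := fun h => hs (Finset.mem_of_mem_erase h)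
      rw [if_neg h1, hB _ hs, sub_zero, abs_of_nonneg (ha v0), add_zero]
    have hBd : ∀ s : Fin 3, -a v0 ≤ |a v0 - a (nb s v0)|
        + (if nb s v0 ∈ B.erase v0 then |a (nb s v0) - a v0| - a (nb s v0) else 0) := by
      intro s
      have h0 := ha v0
      have h1 := ha (nb s v0)
      by_cases h : nb s v0 ∈ B.erase v0
      · rw [if_pos h, abs_sub_comm (a (nb s v0)) (a v0)]
        rcases abs_cases (a v0 - a (nb s v0)) with ⟨h2, h3⟩ | ⟨h2, h3⟩ <;> rw [h2] <;> linarith
      · rw [if_neg h, add_zero]
        have := abs_nonneg (a v0 - a (nb s v0))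
        linarith
    have hfin : a v0 ≤ ∑ s : Fin 3, |a v0 - a (nb s v0)|
        + ∑ s : Fin 3, (if nb s v0 ∈ B.erase v0 then |a (nb s v0) - a v0| - a (nb s v0)
              else 0) := by
      rw [← Finset.sum_add_distrib, Fin.sum_univ_three]
      have h0 := ha v0
      by_cases m0 : nb 0 v0 ∈ B
      · have m1 : nb 1 v0 ∉ B := fun h => absurd (hslot 0 1 m0 h) (by decide)
        have m2 : nb 2 v0 ∉ B := fun h => absurd (hslot 0 2 m0 h) (by decide)
        have := hBd 0
        have := hA 1 m1
        have := hA 2 m2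
        linarith
      · by_cases m1 : nb 1 v0 ∈ B
        · have m2 : nb 2 v0 ∉ B := fun h => absurd (hslot 1 2 m1 h) (by decide)
          have := hA 0 m0
          have := hBd 1
          have := hA 2 m2
          linarith
        · have := hA 0 m0
          have := hA 1 m1
          have := hBd 2
          linarith
    rw [hsumL, hsumR, hsum2]
    linarith

/-- The forest inequality. Proof: induction on the cardinality of `B`; remove a vertex `v₀` with at
most one slot leading into `B` and replace `a` by the function which vanishes at `v₀`. -/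
theorem forest_ineq (hnb : ∀ s v, nb s (nb s v) = v) (a : V → ℝ) (ha : ∀ v, 0 ≤ a v)
    (B : Finset V) (hB : ∀ v, v ∉ B → a v = 0) (hdeg : Degenerate nb B) :
    ∑ v ∈ B, a v ≤ ∑ v ∈ B, ∑ s : Fin 3, |a v - a (nb s v)| :=
  forest_ineq_aux nb hnb B.card B a rfl ha hB hdeg

end Counting

end Vale.Agent.P090
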