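import Mathlib

/-!
# The metric `min (graph distance, L + D (p a) (p b))` (P090, Kalton problem)
-/

namespace Vale.Agent.P090

section PieceMetric

variable {P Q : Type*} (G : SimpleGraph P) (D : Q → Q → ℕ) (p : P → Q) (L : ℕ)

/-- The integer valued distance `min (graph distance, L + D (p a) (p b))`. -/
noncomputable def pieceDistN (a b : P) : ℕ :=
  (min (G.edist a b) ((L + D (p a) (p b) : ℕ) : ℕ∞)).toNat

/-- The same distance as a real number. -/
noncomputable def pieceDist (a b : P) : ℝ := (pieceDistN G D p L a b : ℝ)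

/-- The hypotheses under which `pieceDist` is a metric. -/
structure PieceHyp : Prop where
  one_le_L : 1 ≤ L
  D_self : ∀ q, D q q = 0
  D_comm : ∀ q q', D q q' = D q' q
  D_tri : ∀ a b c, D a c ≤ D a b + D b c
  D_adj : ∀ a b, G.Adj a b → D (p a) (p b) ≤ 1

variable {G D p L}

/-- The cast of `pieceDistN` to the extended naturals is the minimum itself. -/
theorem coe_pieceDistN (a b : P) :
    ((pieceDistN G D p L a b : ℕ) : ℕ∞) = min (G.edist a b) ((L + D (p a) (p b) : ℕ) : ℕ∞) := by
  unfold pieceDistN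
  apply ENat.natCast_toNat
  exact ne_top_of_le_ne_top (ENat.natCast_ne_top _) (min_le_right _ _)

theorem D_le_walk_length (h : PieceHyp G D p L) {a b : P} (w : G.Walk a b) :
    D (p a) (p b) ≤ w.length := by
  induction w with
  | nil => simp [h.D_self]
  | @cons u v x hadj w ih =>
    have h1 := h.D_tri (p u) (p v) (p x)
    have h2 := h.D_adj u v hadj
    rw [SimpleGraph.Walk.length_cons]
    omega

theorem D_le_edist (h : PieceHyp G D p L) (a b : P) :
    ((D (p a) (p b) : ℕ) : ℕ∞) ≤ G.edist a b := by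
  by_cases htop : G.edist a b = ⊤
  · rw [htop]
    exact le_top
  · obtain ⟨w, hw⟩ := SimpleGraph.exists_walk_of_edist_ne_top htop
    rw [← hw]
    exact_mod_cast D_le_walk_length h w

theorem pieceDist_self (a : P) : pieceDist G D p L a a = 0 := by
  unfold pieceDist pieceDistN
  simp

theorem pieceDist_comm (h : PieceHyp G D p L) (a b : P) :
    pieceDist G D p L a b = pieceDist G D p L b a := by
  unfold pieceDist pieceDistN
  rw [SimpleGraph.edist_comm, h.D_comm]

theorem pieceDistN_triangle (h : PieceHyp G D p L) (a b c : P) :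
    pieceDistN G D p L a c ≤ pieceDistN G D p L a b + pieceDistN G D p L b c := by
  have key : ((pieceDistN G D p L a c : ℕ) : ℕ∞)
      ≤ ((pieceDistN G D p L a b + pieceDistN G D p L b c : ℕ) : ℕ∞) := by
    rw [Nat.cast_add, coe_pieceDistN, coe_pieceDistN, coe_pieceDistN]
    have hab := D_le_edist h a b
    have hbc := D_le_edist h b c
    have htri : ((D (p a) (p c) : ℕ) : ℕ∞) ≤ ((D (p a) (p b) : ℕ) : ℕ∞) + ((D (p b) (p c) : ℕ) : ℕ∞) := by
      exact_mod_cast h.D_tri (p a) (p b) (p c)
    rcases min_choice (G.edist a b) ((L + D (p a) (p b) : ℕ) : ℕ∞) with e1 | e1 <;>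
    rcases min_choice (G.edist b c) ((L + D (p b) (p c) : ℕ) : ℕ∞) with e2 | e2 <;>
    rw [e1, e2]
    · exact min_le_of_left_le SimpleGraph.edist_triangle
    · apply min_le_of_right_le
      push_cast
      calc (L : ℕ∞) + (D (p a) (p c) : ℕ)
          ≤ (L : ℕ∞) + (((D (p a) (p b) : ℕ) : ℕ∞) + ((D (p b) (p c) : ℕ) : ℕ∞)) := by gcongr
        _ = ((D (p a) (p b) : ℕ) : ℕ∞) + ((L : ℕ∞) + ((D (p b) (p c) : ℕ) : ℕ∞)) := by ring
        _ ≤ G.edist a b + ((L : ℕ∞) + ((D (p b) (p c) : ℕ) : ℕ∞)) := by gcongr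
    · apply min_le_of_right_le
      push_cast
      calc (L : ℕ∞) + (D (p a) (p c) : ℕ)
          ≤ (L : ℕ∞) + (((D (p a) (p b) : ℕ) : ℕ∞) + ((D (p b) (p c) : ℕ) : ℕ∞)) := by gcongr
        _ = (L : ℕ∞) + ((D (p a) (p b) : ℕ) : ℕ∞) + ((D (p b) (p c) : ℕ) : ℕ∞) := by ring
        _ ≤ (L : ℕ∞) + ((D (p a) (p b) : ℕ) : ℕ∞) + G.edist b c := by gcongr
    · apply min_le_of_right_le
      have := h.D_tri (p a) (p b) (p c)
      exact_mod_cast (by omega : L + D (p a) (p c) ≤ L + D (p a) (p b) + (L + D (p b) (p c)))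
  exact_mod_cast key

theorem pieceDist_triangle (h : PieceHyp G D p L) (a b c : P) :
    pieceDist G D p L a c ≤ pieceDist G D p L a b + pieceDist G D p L b c := by
  unfold pieceDist
  exact_mod_cast pieceDistN_triangle h a b c

theorem one_le_pieceDist (h : PieceHyp G D p L) {a b : P} (hab : a ≠ b) :
    1 ≤ pieceDist G D p L a b := by
  have key : ((1 : ℕ) : ℕ∞) ≤ ((pieceDistN G D p L a b : ℕ) : ℕ∞) := by
    rw [coe_pieceDistN, le_min_iff]
    constructor
    · rw [Nat.cast_one, Order.one_le_iff_ne_zero]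
      intro h0
      exact hab (SimpleGraph.edist_eq_zero_iff.mp h0)
    · have := h.one_le_L
      exact_mod_cast (by omega : 1 ≤ L + D (p a) (p b))
  unfold pieceDist
  exact_mod_cast key

theorem pieceDist_le (a b : P) : pieceDist G D p L a b ≤ (L : ℝ) + D (p a) (p b) := by
  have key : ((pieceDistN G D p L a b : ℕ) : ℕ∞) ≤ ((L + D (p a) (p b) : ℕ) : ℕ∞) := by
    rw [coe_pieceDistN]
    exact min_le_right _ _
  have key' : pieceDistN G D p L a b ≤ L + D (p a) (p b) := by exact_mod_cast key
  unfold pieceDist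
  exact_mod_cast key'

theorem pieceDist_le_one_of_adj {a b : P} (hab : G.Adj a b) : pieceDist G D p L a b ≤ 1 := by
  have key : ((pieceDistN G D p L a b : ℕ) : ℕ∞) ≤ ((1 : ℕ) : ℕ∞) := by
    rw [coe_pieceDistN, Nat.cast_one, ← SimpleGraph.edist_eq_one_iff_adj.mpr hab]
    exact min_le_left _ _
  have key' : pieceDistN G D p L a b ≤ 1 := by exact_mod_cast key
  unfold pieceDist
  exact_mod_cast key'

theorem abs_sub_le_walk_length (f : P → ℝ) (c : ℝ)
    (h1 : ∀ a b, G.Adj a b → |f a - f b| ≤ c) {a b : P} (w : G.Walk a b) :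
    |f a - f b| ≤ c * w.length := by
  induction w with
  | nil => simp
  | @cons u v x hadj w ih =>
    have h2 := h1 u v hadj
    have h3 : |f u - f x| ≤ |f u - f v| + |f v - f x| := abs_sub_le _ _ _
    rw [SimpleGraph.Walk.length_cons]
    push_cast
    linarith

/-- Lipschitz criterion: a function which changes by at most `c` along edges and by at most
`c * (L + D (p a) (p b))` in general is `c`-Lipschitz for `pieceDist`. -/
theorem pieceDist_lipschitz (f : P → ℝ) (c : ℝ) (hc : 0 ≤ c)
    (h1 : ∀ a b, G.Adj a b → |f a - f b| ≤ c)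
    (h2 : ∀ a b, |f a - f b| ≤ c * ((L : ℝ) + D (p a) (p b))) (a b : P) :
    |f a - f b| ≤ c * pieceDist G D p L a b := by
  have hco := coe_pieceDistN (G := G) (D := D) (p := p) (L := L) a b
  rcases min_choice (G.edist a b) ((L + D (p a) (p b) : ℕ) : ℕ∞) with e1 | e1
  · rw [e1] at hco
    have htop : G.edist a b ≠ ⊤ := by
      rw [← hco]
      exact ENat.natCast_ne_top _
    obtain ⟨w, hw⟩ := SimpleGraph.exists_walk_of_edist_ne_top htop
    rw [← hw] at hco
    have hlen : pieceDistN G D p L a b = w.length := by exact_mod_cast hco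
    unfold pieceDist
    rw [hlen]
    exact abs_sub_le_walk_length f c h1 w
  · rw [e1] at hco
    have hlen : pieceDistN G D p L a b = L + D (p a) (p b) := by exact_mod_cast hco
    unfold pieceDist
    rw [hlen]
    push_cast
    exact h2 a b

/-- The metric space structure given by `pieceDist`. -/
@[reducible] noncomputable def pieceMetric (h : PieceHyp G D p L) : MetricSpace P where
  dist := pieceDist G D p L
  dist_self := pieceDist_self
  dist_comm := pieceDist_comm h
  dist_triangle := pieceDist_triangle h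
  eq_of_dist_eq_zero := by
    intro a b hab
    by_contra hne
    have := one_le_pieceDist h hne
    linarith

end PieceMetric

end Vale.Agent.P090
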