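import Vale.Agent.P090.K.Words
import Vale.Agent.P090.K.PieceMetric

/-!
# Frames (P090, Kalton problem)

A frame packages: an alphabet `S`; a finite group `Gam` with involutions `tau σ`; a set `Z` with
involutions `nu σ`; a set `X` of real points embedded in `Z` by `e`; a point `star : X`;
scales `L ≤ W`; and the girth hypothesis: a word of length at most `2 * W` which is trivial in
`Gam` acts trivially on `Z`.

The associated metric space is `F.Pt = X × Gam`, with the metric
`min (graph distance, L + D (q, q'))`, two points being adjacent when one letter `σ` takes one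
to the other in `Z × Gam` (acting by `nu σ` on `Z` and by right multiplication by `tau σ` on
`Gam`), and `D` being the word distance of `Gam` capped at `W`.
-/

namespace Vale.Agent.P090

/-- See the file header. -/
structure Frame where
  S : Type
  Gam : Type
  Z : Type
  X : Type
  [finS : Fintype S]
  [grp : Group Gam]
  [finG : Fintype Gam]
  tau : S → Gam
  nu : S → Z → Z
  e : X → Z
  star : X
  W : ℕ
  L : ℕ
  tau_sq : ∀ σ, tau σ * tau σ = 1
  nu_nu : ∀ σ z, nu σ (nu σ z) = z
  e_inj : Function.Injective e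
  one_le_L : 1 ≤ L
  L_le_W : L ≤ W
  girth : ∀ u : List S, u.length ≤ 2 * W → (u.map tau).prod = 1 → ∀ z, actW nu u z = z

attribute [instance] Frame.finS Frame.grp Frame.finG

namespace Frame

variable (F : Frame)

/-- The letter `σ` acting on `Gam` by right multiplication by `tau σ`. -/
def nuG (σ : F.S) (q : F.Gam) : F.Gam := q * F.tau σ

/-- The letter `σ` acting diagonally on `Z × Gam`. -/
def nuZ (σ : F.S) (ζ : F.Z × F.Gam) : F.Z × F.Gam := (F.nu σ ζ.1, ζ.2 * F.tau σ)

/-- The points of the metric space attached to the frame. -/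
def Pt : Type := F.X × F.Gam

/-- The embedding of the points in `Z × Gam`. -/
def emb (w : F.Pt) : F.Z × F.Gam := (F.e w.1, w.2)

/-- The word distance on `Gam`, capped at `W`. -/
noncomputable def D (q q' : F.Gam) : ℕ := cdist F.nuG F.W q q'

/-- The word distance on `Z × Gam`, capped at `W`. -/
noncomputable def rho (ζ ζ' : F.Z × F.Gam) : ℕ := cdist F.nuZ F.W ζ ζ'

/-- The tent function `1 - rho / W`. -/
noncomputable def theta (ζ ζ' : F.Z × F.Gam) : ℝ := 1 - (F.rho ζ ζ' : ℝ) / F.W

/-- Two points are adjacent when a letter takes one to the other. -/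
def graph : SimpleGraph F.Pt :=
  SimpleGraph.fromRel (fun a b => ∃ σ, F.emb b = F.nuZ σ (F.emb a))

/-- The projection of the points to `Gam`. -/
def proj (w : F.Pt) : F.Gam := w.2

theorem nuG_nuG (σ : F.S) (q : F.Gam) : F.nuG σ (F.nuG σ q) = q := by
  simp [nuG, mul_assoc, F.tau_sq]

theorem nuZ_nuZ (σ : F.S) (ζ : F.Z × F.Gam) : F.nuZ σ (F.nuZ σ ζ) = ζ := by
  simp [nuZ, mul_assoc, F.tau_sq, F.nu_nu]

theorem pieceHyp : PieceHyp F.graph F.D F.proj F.L where
  one_le_L := F.one_le_L
  D_self := fun q => cdist_self _ _ q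
  D_comm := fun q q' => cdist_comm _ _ F.nuG_nuG q q'
  D_tri := fun a b c => cdist_triangle _ _ a b c
  D_adj := by
    intro a b hab
    have h := (SimpleGraph.fromRel_adj _ a b).1 hab
    rcases h.2 with ⟨σ, hσ⟩ | ⟨σ, hσ⟩
    · have h2 : b.2 = a.2 * F.tau σ := congrArg Prod.snd hσ
      have h3 : actW F.nuG [σ] (F.proj a) = F.proj b := by
        simp only [actW_cons, actW_nil, nuG, proj, h2]
      exact cdist_le_length F.nuG F.W [σ] h3
    · have h2 : a.2 = b.2 * F.tau σ := congrArg Prod.snd hσ
      have h3 : actW F.nuG [σ] (F.proj b) = F.proj a := by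
        simp only [actW_cons, actW_nil, nuG, proj, h2]
      have h4 := cdist_le_length F.nuG F.W [σ] h3
      have h5 : F.D (F.proj a) (F.proj b) = F.D (F.proj b) (F.proj a) :=
        cdist_comm _ _ F.nuG_nuG _ _
      rw [h5]
      exact h4

noncomputable instance : MetricSpace F.Pt := pieceMetric F.pieceHyp

theorem dist_def (a b : F.Pt) : dist a b = pieceDist F.graph F.D F.proj F.L a b := rfl

/-- The terminals: the points `(star, q)`. -/
def terminals : Finset F.Pt :=
  Finset.univ.map ⟨fun q : F.Gam => ((F.star, q) : F.X × F.Gam), fun _ _ h => (Prod.ext_iff.1 h).2⟩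

theorem mem_terminals (q : F.Gam) : ((F.star, q) : F.X × F.Gam) ∈ F.terminals :=
  Finset.mem_map.2 ⟨q, Finset.mem_univ _, rfl⟩

/-- The sheet masses: `y` is a point, `z : Z` names the sheet `(z, y.2)` over `y`. -/
noncomputable def aFun (Φ : Finset F.Pt) (μ : F.Pt → F.Pt → ℝ) (y : F.Pt) (z : F.Z) : ℝ :=
  |∑ w ∈ Φ, μ y w * F.theta (F.emb w) (z, y.2)|

end Frame

end Vale.Agent.P090
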