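import Vale.Agent.P090.K.Frame

/-!
# The analytic estimates (P090, Kalton problem)

`Φ`, `μ` are approximation data on the metric space `F.Pt` (see `ApproxData` in `Extract.lean`):
`h2` is the almost Lipschitz property, `h3` says that the terminals are almost fixed.
-/

namespace Vale.Agent.P090

namespace Frame

variable (F : Frame)

theorem one_le_dist {a b : F.Pt} (hab : a ≠ b) : 1 ≤ dist a b :=
  one_le_pieceDist F.pieceHyp hab

theorem dist_le (a b : F.Pt) : dist a b ≤ (F.L : ℝ) + F.D a.2 b.2 :=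
  pieceDist_le a b

theorem dist_le_bound (a b : F.Pt) : dist a b ≤ (F.L : ℝ) + F.W := by
  have h1 := F.dist_le a b
  have h2 : F.D a.2 b.2 ≤ F.W := cdist_le_cap _ _ _ _
  have h3 : (F.D a.2 b.2 : ℝ) ≤ F.W := by exact_mod_cast h2
  linarith

/-- If a letter takes `a` to `b` then `dist a b ≤ 1`. -/
theorem dist_le_one_of_step {a b : F.Pt} {σ : F.S} (h : F.emb b = F.nuZ σ (F.emb a)) :
    dist a b ≤ 1 := by
  by_cases hab : a = b
  · rw [hab, dist_self]
    exact zero_le_one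
  · have hadj : F.graph.Adj a b := (SimpleGraph.fromRel_adj _ a b).2 ⟨hab, Or.inl ⟨σ, h⟩⟩
    exact pieceDist_le_one_of_adj hadj

/-- Lipschitz criterion on `F.Pt`. -/
theorem lipschitz_criterion (f : F.Pt → ℝ) (c : ℝ) (hc : 0 ≤ c)
    (h1 : ∀ (a b : F.Pt) (σ : F.S), F.emb b = F.nuZ σ (F.emb a) → |f a - f b| ≤ c)
    (h2 : ∀ a b : F.Pt, |f a - f b| ≤ c * ((F.L : ℝ) + F.D a.2 b.2)) (a b : F.Pt) :
    |f a - f b| ≤ c * dist a b := by
  refine pieceDist_lipschitz f c hc ?_ h2 a b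
  intro a b hab
  have h := (SimpleGraph.fromRel_adj _ a b).1 hab
  rcases h.2 with ⟨σ, hσ⟩ | ⟨σ, hσ⟩
  · exact h1 a b σ hσ
  · rw [abs_sub_comm]
    exact h1 b a σ hσ

end Frame

end Vale.Agent.P090
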