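import Vale.Agent.P090.K.Sheets2
import Vale.Agent.P090.K.FrameMetric

/-!
# The analytic estimates (P090, Kalton problem)

`Φ`, `μ` are approximation data on the metric space `F.Pt` (see `ApproxData` in `Extract.lean`):
`h2` is the almost Lipschitz property, `h3` says that the terminals are almost fixed.
-/

namespace Vale.Agent.P090

namespace Frame

variable (F : Frame)

variable {F}
variable {lam η : ℝ} {Φ : Finset F.Pt} {μ : F.Pt → F.Pt → ℝ}

/-- Total variation bound. Test function: `f w = sign (μ y w) / 2` on `Φ` and `0` elsewhere, which is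
`1`-Lipschitz because distinct points are at distance at least `1`; compare with the terminal
`(star, y.2)`, which is at distance at most `L` from `y`. -/
theorem tv_bound (hlam : 0 ≤ lam) (hη : 0 ≤ η)
    (h3 : ∀ z, ∀ e ∈ F.terminals, ∀ (f : F.Pt → ℝ) (K : ℝ), 0 ≤ K →
      (∀ a b, |f a - f b| ≤ K * dist a b) →
      |∑ w ∈ Φ, μ z w * f w - f e| ≤ K * (lam * dist z e + η)) (y : F.Pt) :
    ∑ w ∈ Φ, |μ y w| ≤ 1 + 2 * (lam * F.L + η) := by
  classical
  set f : F.Pt → ℝ := fun w => if w ∈ Φ then (if 0 ≤ μ y w then 1 / 2 else -(1 / 2)) else 0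
    with hf
  have hfb : ∀ w, |f w| ≤ 1 / 2 := by
    intro w
    simp only [hf]
    split_ifs
    · rw [abs_of_nonneg (by norm_num)]
    · rw [abs_neg, abs_of_nonneg (by norm_num)]
    · rw [abs_zero]; norm_num
  have hlip : ∀ a b, |f a - f b| ≤ 1 * dist a b := by
    intro a b
    rw [one_mul]
    by_cases hab : a = b
    · subst hab
      simp
    · have h1 := F.one_le_dist hab
      have h2 := hfb a
      have h3' := hfb b
      have h4 : |f a - f b| ≤ |f a| + |f b| := abs_sub _ _
      linarith
  have hd : dist y ((F.star, y.2) : F.X × F.Gam) ≤ (F.L : ℝ) := by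
    have h1 := F.dist_le y ((F.star, y.2) : F.X × F.Gam)
    have h2 : F.D y.2 y.2 = 0 := cdist_self _ _ _
    simp only [h2, Nat.cast_zero, add_zero] at h1
    exact h1
  have h := h3 y _ (F.mem_terminals y.2) f 1 zero_le_one hlip
  have hsum : ∑ w ∈ Φ, μ y w * f w = (∑ w ∈ Φ, |μ y w|) / 2 := by
    rw [Finset.sum_div]
    apply Finset.sum_congr rfl
    intro w hw
    simp only [hf, hw, if_true]
    split_ifs with h0
    · rw [abs_of_nonneg h0]; ring
    · rw [abs_of_neg (not_le.1 h0)]; ring
  rw [hsum, one_mul] at h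
  have h5 := hfb ((F.star, y.2) : F.X × F.Gam)
  have h6 := abs_le.1 h
  have h7 := abs_le.1 h5
  have h8 : lam * dist y ((F.star, y.2) : F.X × F.Gam) ≤ lam * F.L :=
    mul_le_mul_of_nonneg_left hd hlam
  linarith [h6.2, h7.2]

end Frame

end Vale.Agent.P090
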