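import Vale.Agent.P090.K.Sheets2
import Vale.Agent.P090.K.FrameMetric
import Vale.Agent.P090.K.TV

/-!
# The analytic estimates (P090, Kalton problem)

`Φ`, `μ` are approximation data on the metric space `F.Pt` (see `ApproxData` in `Extract.lean`):
`h2` is the almost Lipschitz property, `h3` says that the terminals are almost fixed.
-/

namespace Vale.Agent.P090

namespace Frame

variable (F : Frame)

variable {F}
variable {lam η : ℝ} {Φ : Finset F.Pt} {μ : F.Pt → F.Pt → ℝ}

/-- a sign function with values `1` and `-1` -/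
noncomputable def sgv (x : ℝ) : ℝ := if 0 ≤ x then 1 else -1

theorem sgv_mul (x : ℝ) : sgv x * x = |x| := by
  unfold sgv
  split_ifs with h
  · rw [abs_of_nonneg h, one_mul]
  · rw [abs_of_neg (not_le.mp h)]; ring

theorem abs_sgv (x : ℝ) : |sgv x| = 1 := by
  unfold sgv
  split_ifs <;> simp

/-- the signed sum of tents is bounded by one -/
theorem abs_signed_sum_le (ε : F.Z → ℝ) (hε : ∀ z, |ε z| = 1) (ζ : F.Z × F.Gam) (q : F.Gam)
    (T : Finset F.Z) : |∑ z ∈ T, ε z * F.theta ζ (z, q)| ≤ 1 := by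
  calc |∑ z ∈ T, ε z * F.theta ζ (z, q)| ≤ ∑ z ∈ T, |ε z * F.theta ζ (z, q)| :=
        Finset.abs_sum_le_sum_abs _ _
    _ = ∑ z ∈ T, F.theta ζ (z, q) := by
        apply Finset.sum_congr rfl
        intro z _
        rw [abs_mul, hε z, one_mul, abs_of_nonneg (F.theta_nonneg _ _)]
    _ ≤ 1 := F.sum_theta_le_one ζ q T

/-- the signed sum of tents is `2 / L`-Lipschitz -/
theorem signed_sum_lipschitz (ε : F.Z → ℝ) (hε : ∀ z, |ε z| = 1) (q : F.Gam) (T : Finset F.Z)
    (a b : F.Pt) :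
    |(∑ z ∈ T, ε z * F.theta (F.emb a) (z, q)) - ∑ z ∈ T, ε z * F.theta (F.emb b) (z, q)|
      ≤ 2 / F.L * dist a b := by
  have hL : (0 : ℝ) < F.L := by
    have := F.one_le_L
    exact_mod_cast (lt_of_lt_of_le Nat.zero_lt_one this)
  have hW : (0 : ℝ) < F.W := by exact_mod_cast F.W_pos
  have hLW : (F.L : ℝ) ≤ F.W := by exact_mod_cast F.L_le_W
  apply F.lipschitz_criterion (fun w => ∑ z ∈ T, ε z * F.theta (F.emb w) (z, q)) (2 / F.L)
    (by positivity)
  · intro a b σ hab
    rw [hab, ← Finset.sum_sub_distrib]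
    calc |∑ z ∈ T, (ε z * F.theta (F.emb a) (z, q) - ε z * F.theta (F.nuZ σ (F.emb a)) (z, q))|
        ≤ ∑ z ∈ T, |ε z * F.theta (F.emb a) (z, q) - ε z * F.theta (F.nuZ σ (F.emb a)) (z, q)| :=
          Finset.abs_sum_le_sum_abs _ _
      _ = ∑ z ∈ T, |F.theta (F.emb a) (z, q) - F.theta (F.nuZ σ (F.emb a)) (z, q)| := by
          apply Finset.sum_congr rfl
          intro z _
          rw [← mul_sub, abs_mul, hε z, one_mul]
      _ ≤ 2 / F.W := F.sum_abs_theta_step_left σ (F.emb a) q T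
      _ ≤ 2 / F.L := by
          apply div_le_div_of_nonneg_left (by norm_num) hL hLW
  · intro a b
    have h1 := abs_signed_sum_le ε hε (F.emb a) q T
    have h2 := abs_signed_sum_le ε hε (F.emb b) q T
    have h3 : |(∑ z ∈ T, ε z * F.theta (F.emb a) (z, q)) - ∑ z ∈ T, ε z * F.theta (F.emb b) (z, q)|
        ≤ 2 := by
      have := abs_sub (∑ z ∈ T, ε z * F.theta (F.emb a) (z, q))
        (∑ z ∈ T, ε z * F.theta (F.emb b) (z, q))
      linarith
    have h4 : (2 : ℝ) ≤ 2 / F.L * ((F.L : ℝ) + F.D a.2 b.2) := by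
      have hD : (0 : ℝ) ≤ F.D a.2 b.2 := Nat.cast_nonneg _
      have : 2 / (F.L : ℝ) * ((F.L : ℝ) + F.D a.2 b.2) = 2 + 2 / F.L * F.D a.2 b.2 := by
        field_simp
      rw [this]
      have : 0 ≤ 2 / (F.L : ℝ) * F.D a.2 b.2 := by positivity
      linarith
    linarith

/-- Variation of the sheet masses along an edge.

Proof sketch. Write `q = y.2`, so `y'.2 = q * tau σ`. By `abs_abs_sub_abs_le` and the triangle inequality each term is at most
`|∑ w, (μ y w - μ y' w) * θ (emb w) (z, q)| + |∑ w, μ y' w * (θ (emb w) (z, q) - θ (emb w) (nu σ z, q * tau σ))|`.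
First part: choose signs `ε z` and put `h w = ∑ z ∈ T, ε z * θ (emb w) (z, q)`. Then `|h| ≤ 1` by `sum_theta_le_one`,
and `h` changes by at most `2 / W ≤ 2 / L` along a step by `sum_abs_theta_step_left`; so by `lipschitz_criterion` it is
`2 / L`-Lipschitz, and `h2` together with `dist y y' ≤ 1` bounds the first part by `2 / L * (lam + η)`.
Second part: exchange the sums and use `sum_abs_theta_step_right` and `tv_bound` for `y'`. -/
theorem var_bound (hlam : 0 ≤ lam) (hη : 0 ≤ η)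
    (h2 : ∀ z z' (f : F.Pt → ℝ) (K : ℝ), 0 ≤ K → (∀ a b, |f a - f b| ≤ K * dist a b) →
      |∑ w ∈ Φ, μ z w * f w - ∑ w ∈ Φ, μ z' w * f w| ≤ K * (lam * dist z z' + η))
    (h3 : ∀ z, ∀ e ∈ F.terminals, ∀ (f : F.Pt → ℝ) (K : ℝ), 0 ≤ K →
      (∀ a b, |f a - f b| ≤ K * dist a b) →
      |∑ w ∈ Φ, μ z w * f w - f e| ≤ K * (lam * dist z e + η))
    (y y' : F.Pt) (σ : F.S) (hy : F.emb y' = F.nuZ σ (F.emb y)) (T : Finset F.Z) :
    ∑ z ∈ T, |F.aFun Φ μ y z - F.aFun Φ μ y' (F.nu σ z)| ≤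
      2 / F.L * (lam + η) + 2 / F.W * (1 + 2 * (lam * F.L + η)) := by
  have hL : (0 : ℝ) < F.L := by
    have := F.one_le_L
    exact_mod_cast (lt_of_lt_of_le Nat.zero_lt_one this)
  have hW : (0 : ℝ) < F.W := by exact_mod_cast F.W_pos
  have hq : y'.2 = y.2 * F.tau σ := congrArg Prod.snd hy
  set q := y.2 with hqdef
  -- the three families of sums
  set av : F.Z → ℝ := fun z => ∑ w ∈ Φ, μ y w * F.theta (F.emb w) (z, q) with hav
  set cv : F.Z → ℝ := fun z => ∑ w ∈ Φ, μ y' w * F.theta (F.emb w) (z, q) with hcv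
  set bv : F.Z → ℝ := fun z => ∑ w ∈ Φ, μ y' w * F.theta (F.emb w) (F.nu σ z, q * F.tau σ) with hbv
  have hterm : ∀ z, |F.aFun Φ μ y z - F.aFun Φ μ y' (F.nu σ z)| ≤
      |av z - cv z| + |cv z - bv z| := by
    intro z
    have e1 : F.aFun Φ μ y z = |av z| := rfl
    have e2 : F.aFun Φ μ y' (F.nu σ z) = |bv z| := by
      simp only [aFun, hbv, hq]
    rw [e1, e2]
    calc |(|av z| - |bv z|)| ≤ |av z - bv z| := abs_abs_sub_abs_le _ _
      _ = |(av z - cv z) + (cv z - bv z)| := by ring_nf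
      _ ≤ |av z - cv z| + |cv z - bv z| := abs_add_le _ _
  -- first part
  have hfirst : ∑ z ∈ T, |av z - cv z| ≤ 2 / F.L * (lam + η) := by
    set ε : F.Z → ℝ := fun z => sgv (av z - cv z) with hε
    have hε1 : ∀ z, |ε z| = 1 := fun z => abs_sgv _
    have hswap : ∑ z ∈ T, |av z - cv z| =
        ∑ w ∈ Φ, μ y w * (∑ z ∈ T, ε z * F.theta (F.emb w) (z, q)) -
        ∑ w ∈ Φ, μ y' w * (∑ z ∈ T, ε z * F.theta (F.emb w) (z, q)) := by
      have e1 : ∀ (v : F.Pt), ∑ w ∈ Φ, μ v w * (∑ z ∈ T, ε z * F.theta (F.emb w) (z, q)) =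
          ∑ z ∈ T, ε z * ∑ w ∈ Φ, μ v w * F.theta (F.emb w) (z, q) := by
        intro v
        simp only [Finset.mul_sum]
        rw [Finset.sum_comm]
        apply Finset.sum_congr rfl
        intro z _
        apply Finset.sum_congr rfl
        intro w _
        ring
      rw [e1 y, e1 y', ← Finset.sum_sub_distrib]
      apply Finset.sum_congr rfl
      intro z _
      rw [← mul_sub]
      exact (sgv_mul _).symm
    rw [hswap]
    have hK : (0 : ℝ) ≤ 2 / F.L := by positivity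
    have h := h2 y y' (fun w => ∑ z ∈ T, ε z * F.theta (F.emb w) (z, q)) (2 / F.L) hK
      (fun a b => signed_sum_lipschitz ε hε1 q T a b)
    have hd : dist y y' ≤ 1 := F.dist_le_one_of_step hy
    have h5 : lam * dist y y' + η ≤ lam + η := by nlinarith
    calc _ ≤ |∑ w ∈ Φ, μ y w * (∑ z ∈ T, ε z * F.theta (F.emb w) (z, q)) -
        ∑ w ∈ Φ, μ y' w * (∑ z ∈ T, ε z * F.theta (F.emb w) (z, q))| := le_abs_self _
      _ ≤ 2 / F.L * (lam * dist y y' + η) := h
      _ ≤ 2 / F.L * (lam + η) := mul_le_mul_of_nonneg_left h5 hK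
  -- second part
  have hsecond : ∑ z ∈ T, |cv z - bv z| ≤ 2 / F.W * (1 + 2 * (lam * F.L + η)) := by
    have htv := tv_bound hlam hη h3 y'
    calc ∑ z ∈ T, |cv z - bv z|
        ≤ ∑ z ∈ T, ∑ w ∈ Φ, |μ y' w| *
            |F.theta (F.emb w) (z, q) - F.theta (F.emb w) (F.nu σ z, q * F.tau σ)| := by
          apply Finset.sum_le_sum
          intro z _
          simp only [hcv, hbv]
          rw [← Finset.sum_sub_distrib]
          calc _ ≤ ∑ w ∈ Φ, |μ y' w * F.theta (F.emb w) (z, q) -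
                μ y' w * F.theta (F.emb w) (F.nu σ z, q * F.tau σ)| :=
                Finset.abs_sum_le_sum_abs _ _
            _ = _ := by
                apply Finset.sum_congr rfl
                intro w _
                rw [← mul_sub, abs_mul]
      _ = ∑ w ∈ Φ, |μ y' w| * ∑ z ∈ T,
            |F.theta (F.emb w) (z, q) - F.theta (F.emb w) (F.nu σ z, q * F.tau σ)| := by
          rw [Finset.sum_comm]
          apply Finset.sum_congr rfl
          intro w _
          rw [Finset.mul_sum]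
      _ ≤ ∑ w ∈ Φ, |μ y' w| * (2 / F.W) := by
          apply Finset.sum_le_sum
          intro w _
          exact mul_le_mul_of_nonneg_left (F.sum_abs_theta_step_right σ (F.emb w) q T)
            (abs_nonneg _)
      _ = 2 / F.W * ∑ w ∈ Φ, |μ y' w| := by
          rw [← Finset.sum_mul, mul_comm]
      _ ≤ 2 / F.W * (1 + 2 * (lam * F.L + η)) :=
          mul_le_mul_of_nonneg_left htv (by positivity)
  calc ∑ z ∈ T, |F.aFun Φ μ y z - F.aFun Φ μ y' (F.nu σ z)|
      ≤ ∑ z ∈ T, (|av z - cv z| + |cv z - bv z|) := Finset.sum_le_sum (fun z _ => hterm z)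
    _ = ∑ z ∈ T, |av z - cv z| + ∑ z ∈ T, |cv z - bv z| := Finset.sum_add_distrib
    _ ≤ _ := add_le_add hfirst hsecond

end Frame

end Vale.Agent.P090
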