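import Vale.Agent.P090.K.Mass
import Vale.Agent.P090.K.Var
import Vale.Agent.P090.K.Degen
import Vale.Agent.P090.K.Extract

/-!
# A frame with enough test graphs has no approximation data (P090, Kalton problem)
-/

namespace Vale.Agent.P090

namespace Frame

variable (F : Frame)

/-- A test graph for the finite set `Φ`: a finite nonempty cubic graph `Y` (three involutions `nbY s`),
mapped to the real points by `i`, the edge at `y` in slot `s` being realised by the letter
`lab y s`, such that there is no infinite reduced path `(y t, z t)` in `Y × Z` with all `z t`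
in `F.reach Φ`. -/
structure TestGraph (Φ : Finset F.Pt) where
  Y : Type
  [fin : Fintype Y]
  [ne : Nonempty Y]
  i : Y → F.X
  lab : Y → Fin 3 → F.S
  nbY : Fin 3 → Y → Y
  nbY_nbY : ∀ s y, nbY s (nbY s y) = y
  lab_nbY : ∀ s y, lab (nbY s y) s = lab y s
  step : ∀ s y, F.e (i (nbY s y)) = F.nu (lab y s) (F.e (i y))
  no_path : ¬ ∃ (y : ℕ → Y) (z : ℕ → F.Z) (s : ℕ → Fin 3), (∀ t, z t ∈ F.reach Φ) ∧
    (∀ t, y (t + 1) = nbY (s t) (y t)) ∧ (∀ t, z (t + 1) = F.nu (lab (y t) (s t)) (z t)) ∧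
    ∀ t, s (t + 1) ≠ s t

/-- Main theorem on frames. With `V = 2 / L * (lam + η) + 2 / W * (1 + 2 * (lam * L + η))`: apply
`forest_ineq` on `Y × Gam × Z` to `a (y, q, z) = aFun Φ μ (i y, q) z`, `B = univ × univ × T` with `T` the
finite set `F.reach Φ`. The left side is at least `card Y * card Gam * (1 - (lam * L + η) / W)` by
`mass_bound` and the right side at most `card Y * card Gam * 3 * V` by `var_bound`. -/
theorem no_approxData {lam η : ℝ} (hlam : 0 ≤ lam) (hη : 0 ≤ η)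
    (hsmall : 3 * (2 / F.L * (lam + η) + 2 / F.W * (1 + 2 * (lam * F.L + η))) <
      1 - (lam * F.L + η) / F.W)
    (htest : ∀ Φ : Finset F.Pt, Nonempty (F.TestGraph Φ)) :
    ¬ ApproxData F.Pt lam η F.terminals := by
  rintro ⟨Φ, μ, -, h2, h3⟩
  obtain ⟨G⟩ := htest Φ
  have := G.fin
  have := G.ne
  set Vb : ℝ := 2 / F.L * (lam + η) + 2 / F.W * (1 + 2 * (lam * F.L + η)) with hVb
  set c0 : ℝ := 1 - (lam * F.L + η) / F.W with hc0
  -- the cubic graph on `Y × Gam × Z`
  let nb : Fin 3 → G.Y × F.Gam × F.Z → G.Y × F.Gam × F.Z := fun s v =>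
    (G.nbY s v.1, v.2.1 * F.tau (G.lab v.1 s), F.nu (G.lab v.1 s) v.2.2)
  let a : G.Y × F.Gam × F.Z → ℝ := fun v => F.aFun Φ μ (G.i v.1, v.2.1) v.2.2
  let T : Finset F.Z := (F.reach_finite Φ).toFinset
  have hT : ∀ z, z ∈ T ↔ z ∈ F.reach Φ := fun z => Set.Finite.mem_toFinset _
  let B : Finset (G.Y × F.Gam × F.Z) := Finset.univ ×ˢ (Finset.univ ×ˢ T)
  have hBmem : ∀ v, v ∈ B ↔ v.2.2 ∈ F.reach Φ := by
    intro v
    simp only [B, Finset.mem_product, Finset.mem_univ, true_and, hT]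
  have hnb : ∀ s v, nb s (nb s v) = v := by
    rintro s ⟨y, q, z⟩
    simp only [nb, G.nbY_nbY, G.lab_nbY, F.nu_nu, mul_assoc, F.tau_sq, mul_one]
  have ha : ∀ v, 0 ≤ a v := fun v => aFun_nonneg _ _
  have hB : ∀ v, v ∉ B → a v = 0 := by
    intro v hv
    rw [hBmem] at hv
    exact aFun_eq_zero _ hv
  have hdeg : Degenerate nb B := by
    apply degenerate_of_no_path
    rintro ⟨v, s, hv, hstep, hs⟩
    apply G.no_path
    refine ⟨fun t => (v t).1, fun t => (v t).2.2, s, ?_, ?_, ?_, hs⟩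
    · intro t
      exact (hBmem _).1 (hv t)
    · intro t
      show (v (t + 1)).1 = _
      rw [hstep t]
    · intro t
      show (v (t + 1)).2.2 = _
      rw [hstep t]
  have hmain := forest_ineq nb hnb a ha B hB hdeg
  have hN : (0 : ℝ) < (Fintype.card G.Y : ℝ) * (Fintype.card F.Gam : ℝ) := by
    have h1 : 0 < Fintype.card G.Y := Fintype.card_pos
    have h2 : 0 < Fintype.card F.Gam := Fintype.card_pos
    positivity
  have hlow : (Fintype.card G.Y : ℝ) * (Fintype.card F.Gam : ℝ) * c0 ≤ ∑ v ∈ B, a v := by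
    have e1 : ∑ v ∈ B, a v = ∑ y : G.Y, ∑ q : F.Gam, ∑ z ∈ T, F.aFun Φ μ (G.i y, q) z := by
      simp only [B, Finset.sum_product]
      rfl
    rw [e1]
    have e2 : ∀ y : G.Y, ∀ q : F.Gam, c0 ≤ ∑ z ∈ T, F.aFun Φ μ (G.i y, q) z := fun y q =>
      mass_bound hlam hη h3 (G.i y, q) T (fun z hz => (hT z).2 hz)
    calc (Fintype.card G.Y : ℝ) * (Fintype.card F.Gam : ℝ) * c0
        = ∑ _y : G.Y, ∑ _q : F.Gam, c0 := by
          simp only [Finset.sum_const, Finset.card_univ, nsmul_eq_mul]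
          ring
      _ ≤ _ := Finset.sum_le_sum fun y _ => Finset.sum_le_sum fun q _ => e2 y q
  have hup : ∑ v ∈ B, ∑ s : Fin 3, |a v - a (nb s v)| ≤
      (Fintype.card G.Y : ℝ) * (Fintype.card F.Gam : ℝ) * (3 * Vb) := by
    have e1 : ∑ v ∈ B, ∑ s : Fin 3, |a v - a (nb s v)| =
        ∑ y : G.Y, ∑ q : F.Gam, ∑ s : Fin 3, ∑ z ∈ T,
          |F.aFun Φ μ (G.i y, q) z -
            F.aFun Φ μ (G.i (G.nbY s y), q * F.tau (G.lab y s)) (F.nu (G.lab y s) z)| := by
      simp only [B, Finset.sum_product]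
      refine Finset.sum_congr rfl fun y _ => Finset.sum_congr rfl fun q _ => ?_
      rw [Finset.sum_comm]
    rw [e1]
    have e2 : ∀ (y : G.Y) (q : F.Gam) (s : Fin 3), ∑ z ∈ T,
          |F.aFun Φ μ (G.i y, q) z -
            F.aFun Φ μ (G.i (G.nbY s y), q * F.tau (G.lab y s)) (F.nu (G.lab y s) z)| ≤ Vb := by
      intro y q s
      refine var_bound hlam hη h2 h3 (G.i y, q) (G.i (G.nbY s y), q * F.tau (G.lab y s))
        (G.lab y s) ?_ T
      simp only [emb, nuZ, G.step]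
    calc _ ≤ ∑ _y : G.Y, ∑ _q : F.Gam, ∑ _s : Fin 3, Vb :=
          Finset.sum_le_sum fun y _ => Finset.sum_le_sum fun q _ =>
            Finset.sum_le_sum fun s _ => e2 y q s
      _ = _ := by
          simp only [Finset.sum_const, Finset.card_univ, nsmul_eq_mul, Fintype.card_fin]
          push_cast
          ring
  have hfin := hlow.trans (hmain.trans hup)
  have : c0 ≤ 3 * Vb := le_of_mul_le_mul_left hfin hN
  linarith

end Frame

end Vale.Agent.P090
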