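import Mathlib

/-!
# Gluing countably many metric spaces (P090, Kalton problem)
-/

namespace Vale.Agent.P090

open Classical in
/-- the retraction of the disjoint union onto the piece `n` -/
noncomputable def glueRetr (E : ℕ → Type) [∀ n, Nonempty (E n)] (n : ℕ) :
    (Σ i, E i) → E n := fun p =>
  if h : p.1 = n then h ▸ p.2 else Nonempty.some inferInstance

theorem glueRetr_same (E : ℕ → Type) [∀ n, Nonempty (E n)] (n : ℕ) (x : E n) :
    glueRetr E n ⟨n, x⟩ = x := by
  simp [glueRetr]

theorem glueRetr_ne (E : ℕ → Type) [∀ n, Nonempty (E n)] {n i : ℕ} (h : i ≠ n) (x : E i) :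
    glueRetr E n ⟨i, x⟩ = Nonempty.some inferInstance := by
  simp [glueRetr, h]

/-- Countably many nonempty metric spaces in which distinct points are at distance at least `1` can be
glued to one such space, of which each is a `1`-Lipschitz retract. (Use the metric of
`Metric.Sigma.metricSpace` on the disjoint union, or any similar metric.) -/
theorem exists_glue (E : ℕ → Type) [∀ n, MetricSpace (E n)] [∀ n, Nonempty (E n)]
    (hsep : ∀ n (x y : E n), x ≠ y → 1 ≤ dist x y) :
    ∃ (M : Type) (_ : MetricSpace M) (_ : M), (∀ x y : M, x ≠ y → 1 ≤ dist x y) ∧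
      ∀ n, ∃ (ι : E n → M) (r : M → E n), (∀ a b, dist (ι a) (ι b) = dist a b) ∧
        (∀ a b, dist (r a) (r b) ≤ dist a b) ∧ ∀ a, r (ι a) = a := by
  refine ⟨Σ i, E i, Metric.Sigma.metricSpace, ⟨0, Nonempty.some inferInstance⟩, ?_, ?_⟩
  · rintro ⟨i, x⟩ ⟨j, y⟩ hne
    by_cases hij : i = j
    · subst hij
      have hxy : x ≠ y := fun h => hne (by rw [h])
      have := hsep i x y hxy
      rwa [← Metric.Sigma.dist_same i x y] at this
    · exact Metric.Sigma.one_le_dist_of_ne hij x y
  · intro n
    refine ⟨Sigma.mk n, glueRetr E n, fun a b => Metric.Sigma.dist_same n a b, ?_,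
      fun a => glueRetr_same E n a⟩
    rintro ⟨i, x⟩ ⟨j, y⟩
    by_cases hi : i = n
    · subst hi
      by_cases hj : j = i
      · subst hj
        rw [glueRetr_same, glueRetr_same]
        exact (Metric.Sigma.dist_same j x y).ge
      · rw [glueRetr_same, glueRetr_ne E hj]
        have h := Metric.Sigma.dist_ne (Ne.symm hj) x y
        have h0 : 0 ≤ dist (Nonempty.some ⟨y⟩) y := dist_nonneg
        have h1 : dist x (Nonempty.some inferInstance) = dist x (Nonempty.some ⟨x⟩) := rfl
        calc dist x (Nonempty.some inferInstance) = dist x (Nonempty.some ⟨x⟩) := h1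
          _ ≤ dist x (Nonempty.some ⟨x⟩) + 1 + dist (Nonempty.some ⟨y⟩) y := by linarith
          _ = _ := h.symm
    · by_cases hj : j = n
      · subst hj
        rw [glueRetr_same, glueRetr_ne E hi]
        have h := Metric.Sigma.dist_ne hi x y
        have h0 : 0 ≤ dist x (Nonempty.some ⟨x⟩) := dist_nonneg
        have h1 : dist (Nonempty.some inferInstance) y = dist (Nonempty.some ⟨y⟩) y := rfl
        calc dist (Nonempty.some inferInstance) y = dist (Nonempty.some ⟨y⟩) y := h1
          _ ≤ dist x (Nonempty.some ⟨x⟩) + 1 + dist (Nonempty.some ⟨y⟩) y := by linarith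
          _ = _ := h.symm
      · rw [glueRetr_ne E hi, glueRetr_ne E hj, dist_self]
        exact @dist_nonneg _ Metric.Sigma.metricSpace.toPseudoMetricSpace _ _

end Vale.Agent.P090
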