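import Vale.Agent.P090.K.ConcreteTest
import Vale.Agent.P090.K.Glue

/-!
# A uniformly discrete metric space whose free space fails the BAP (P090, Kalton problem)
-/

namespace Vale.Agent.P090

theorem exists_uniformly_discrete_not_hasBAP :
    ∃ (M : Type) (_ : MetricSpace M), (∀ x y : M, x ≠ y → 1 ≤ dist x y) ∧
      ∀ (o : M) (lam : ℝ), ¬ HasBAP lam (freeSpace M o) := by
  have : ∀ n, Nonempty (kFrame n).Pt := fun n => ⟨((kFrame n).star, 1)⟩
  obtain ⟨M, hM, -, hsep, hglue⟩ :=
    exists_glue (fun n => (kFrame n).Pt) (fun n x y hxy => (kFrame n).one_le_dist hxy)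
  refine ⟨M, hM, hsep, fun o lam hbap => ?_⟩
  obtain ⟨n, hn⟩ := exists_nat_ge lam
  obtain ⟨ι, r, hι, hr, hrι⟩ := hglue n
  exact kFrame_no_approxData n
    (approxData_of_hasBAP (hbap.mono hn) ι r hι hr hrι _ (kFrame n).dist_le_bound _ one_pos)

end Vale.Agent.P090
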