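import Vale.Agent.P090.K.Sheets2
import Vale.Agent.P090.K.FrameMetric

/-!
# The analytic estimates (P090, Kalton problem)

`Φ`, `μ` are approximation data on the metric space `F.Pt` (see `ApproxData` in `Extract.lean`):
`h2` is the almost Lipschitz property, `h3` says that the terminals are almost fixed.
-/

namespace Vale.Agent.P090

namespace Frame

variable (F : Frame)

/-- The capped word distance to a fixed point is `1`-Lipschitz for the capped word distance. -/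
theorem abs_D_sub_le (a b q : F.Gam) : |(F.D a q : ℝ) - F.D b q| ≤ F.D a b := by
  have h1 : F.D a q ≤ F.D a b + F.D b q := cdist_triangle _ _ a b q
  have h2 : F.D b q ≤ F.D b a + F.D a q := cdist_triangle _ _ b a q
  have h3 : F.D b a = F.D a b := cdist_comm _ _ F.nuG_nuG _ _
  rw [h3] at h2
  have h1' : (F.D a q : ℝ) ≤ F.D a b + F.D b q := by exact_mod_cast h1
  have h2' : (F.D b q : ℝ) ≤ F.D a b + F.D a q := by exact_mod_cast h2
  rw [abs_le]
  constructor <;> linarith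

theorem D_le_one_of_step {a b : F.Pt} {σ : F.S} (h : F.emb b = F.nuZ σ (F.emb a)) :
    F.D a.2 b.2 ≤ 1 := by
  have h2 : b.2 = a.2 * F.tau σ := congrArg Prod.snd h
  have h3 : actW F.nuG [σ] a.2 = b.2 := by
    simp only [actW_cons, actW_nil, nuG, h2]
  exact cdist_le_length F.nuG F.W [σ] h3

/-- The test function `1 - D (w.2, q) / W` is Lipschitz with constant `1 / W`. -/
theorem lipschitz_massTest (q : F.Gam) (a b : F.Pt) :
    |(1 - (F.D a.2 q : ℝ) / F.W) - (1 - (F.D b.2 q : ℝ) / F.W)| ≤ (1 / (F.W : ℝ)) * dist a b := by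
  have hW : (0 : ℝ) < F.W := by exact_mod_cast F.W_pos
  have key : ∀ a b : F.Pt, |(1 - (F.D a.2 q : ℝ) / F.W) - (1 - (F.D b.2 q : ℝ) / F.W)|
      ≤ (1 / (F.W : ℝ)) * F.D a.2 b.2 := by
    intro a b
    have h := F.abs_D_sub_le a.2 b.2 q
    have e : (1 - (F.D a.2 q : ℝ) / F.W) - (1 - (F.D b.2 q : ℝ) / F.W)
        = -(((F.D a.2 q : ℝ) - F.D b.2 q) / F.W) := by ring
    rw [e, abs_neg, abs_div, abs_of_pos hW, div_le_iff₀ hW]
    calc |(F.D a.2 q : ℝ) - F.D b.2 q| ≤ F.D a.2 b.2 := h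
      _ = 1 / (F.W : ℝ) * F.D a.2 b.2 * F.W := by field_simp
  refine F.lipschitz_criterion (fun w => 1 - (F.D w.2 q : ℝ) / F.W) (1 / (F.W : ℝ))
    (by positivity) ?_ ?_ a b
  · intro a b σ h
    refine (key a b).trans ?_
    have h1 : (F.D a.2 b.2 : ℝ) ≤ 1 := by exact_mod_cast F.D_le_one_of_step h
    calc 1 / (F.W : ℝ) * F.D a.2 b.2 ≤ 1 / (F.W : ℝ) * 1 :=
          mul_le_mul_of_nonneg_left h1 (by positivity)
      _ = 1 / (F.W : ℝ) := mul_one _
  · intro a b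
    refine (key a b).trans ?_
    refine mul_le_mul_of_nonneg_left ?_ (by positivity)
    have : (0 : ℝ) ≤ F.L := Nat.cast_nonneg _
    linarith

variable {F}
variable {lam η : ℝ} {Φ : Finset F.Pt} {μ : F.Pt → F.Pt → ℝ}

/-- Lower bound for the total sheet mass. Test function: `f w = 1 - D (w.2, y.2) / W`. -/
theorem mass_bound (hlam : 0 ≤ lam) (hη : 0 ≤ η)
    (h3 : ∀ z, ∀ e ∈ F.terminals, ∀ (f : F.Pt → ℝ) (K : ℝ), 0 ≤ K →
      (∀ a b, |f a - f b| ≤ K * dist a b) →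
      |∑ w ∈ Φ, μ z w * f w - f e| ≤ K * (lam * dist z e + η)) (y : F.Pt) (T : Finset F.Z)
    (hT : ∀ z ∈ F.reach Φ, z ∈ T) :
    1 - (lam * F.L + η) / F.W ≤ ∑ z ∈ T, F.aFun Φ μ y z := by
  have hW : (0 : ℝ) < F.W := by exact_mod_cast F.W_pos
  have hmain := h3 y (F.star, y.2) (F.mem_terminals y.2)
    (fun w => 1 - (F.D w.2 y.2 : ℝ) / F.W) (1 / (F.W : ℝ)) (by positivity)
    (F.lipschitz_massTest y.2)
  have hDself : F.D y.2 y.2 = 0 := cdist_self _ _ _
  have hfe : (1 - (F.D (((F.star, y.2) : F.X × F.Gam) : F.Pt).2 y.2 : ℝ) / F.W) = 1 := by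
    show (1 - (F.D y.2 y.2 : ℝ) / F.W) = 1
    rw [hDself]
    simp
  have hdist : dist y (((F.star, y.2) : F.X × F.Gam) : F.Pt) ≤ F.L := by
    have h := F.dist_le y (((F.star, y.2) : F.X × F.Gam) : F.Pt)
    have h' : (F.D y.2 (((F.star, y.2) : F.X × F.Gam) : F.Pt).2 : ℝ) = 0 := by
      show (F.D y.2 y.2 : ℝ) = 0
      rw [hDself]
      simp
    rw [h'] at h
    linarith
  simp only [] at hmain
  rw [hfe] at hmain
  have hbound : 1 / (F.W : ℝ) * (lam * dist y (((F.star, y.2) : F.X × F.Gam) : F.Pt) + η)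
      ≤ (lam * F.L + η) / F.W := by
    rw [one_div, inv_mul_eq_div]
    refine div_le_div_of_nonneg_right ?_ hW.le
    have := mul_le_mul_of_nonneg_left hdist hlam
    linarith
  have hlow : 1 - (lam * F.L + η) / F.W ≤ ∑ w ∈ Φ, μ y w * (1 - (F.D w.2 y.2 : ℝ) / F.W) := by
    have := (abs_le.1 (hmain.trans hbound)).1
    linarith
  refine hlow.trans ?_
  have hrew : ∑ w ∈ Φ, μ y w * (1 - (F.D w.2 y.2 : ℝ) / F.W)
      = ∑ z ∈ T, ∑ w ∈ Φ, μ y w * F.theta (F.emb w) (z, y.2) := by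
    rw [Finset.sum_comm]
    refine Finset.sum_congr rfl (fun w hw => ?_)
    rw [← Finset.mul_sum]
    have := F.sum_theta_eq (F.emb w) y.2 T (fun z hz => hT z (F.mem_reach_of_rho_lt hw hz))
    rw [this]
    rfl
  rw [hrew]
  exact Finset.sum_le_sum (fun z _ => le_abs_self _)

theorem aFun_nonneg (y : F.Pt) (z : F.Z) : 0 ≤ F.aFun Φ μ y z := abs_nonneg _

theorem aFun_eq_zero (y : F.Pt) {z : F.Z} (hz : z ∉ F.reach Φ) : F.aFun Φ μ y z = 0 := by
  unfold aFun
  rw [abs_eq_zero]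
  refine Finset.sum_eq_zero (fun w hw => ?_)
  have : ¬ F.rho (F.emb w) (z, y.2) < F.W := fun h => hz (F.mem_reach_of_rho_lt hw h)
  rw [F.theta_eq_zero this, mul_zero]

end Frame

end Vale.Agent.P090
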