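import Vale.Agent.P090.K.Frame

/-!
# Sheets (P090, Kalton problem)

Elementary properties of the tent functions `F.theta ζ (z, q)`: for fixed `ζ` and `q` at most one
`z` gives a nonzero value (girth hypothesis), and the values add up to `1 - D (ζ.2, q) / W`.
-/

namespace Vale.Agent.P090

namespace Frame

variable (F : Frame)

theorem W_pos : 0 < F.W := lt_of_lt_of_le F.one_le_L F.L_le_W

theorem actW_nuZ_fst (u : List F.S) (ζ : F.Z × F.Gam) :
    (actW F.nuZ u ζ).1 = actW F.nu u ζ.1 := by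
  induction u generalizing ζ with
  | nil => rfl
  | cons σ u ih =>
    rw [actW_cons, actW_cons, ih]
    rfl

theorem actW_nuZ_snd (u : List F.S) (ζ : F.Z × F.Gam) :
    (actW F.nuZ u ζ).2 = ζ.2 * (u.map F.tau).prod := by
  induction u generalizing ζ with
  | nil => simp
  | cons σ u ih =>
    rw [actW_cons, ih, List.map_cons, List.prod_cons, ← mul_assoc]
    rfl

theorem actW_nuG (u : List F.S) (q : F.Gam) :
    actW F.nuG u q = q * (u.map F.tau).prod := by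
  induction u generalizing q with
  | nil => simp
  | cons σ u ih =>
    rw [actW_cons, ih, List.map_cons, List.prod_cons, ← mul_assoc]
    rfl

theorem rho_le (ζ ζ' : F.Z × F.Gam) : F.rho ζ ζ' ≤ F.W := cdist_le_cap _ _ _ _

theorem W_pos_real_sheets1 : (0 : ℝ) < F.W := by exact_mod_cast F.W_pos

theorem theta_nonneg (ζ ζ' : F.Z × F.Gam) : 0 ≤ F.theta ζ ζ' := by
  unfold theta
  have h : (F.rho ζ ζ' : ℝ) ≤ F.W := by exact_mod_cast F.rho_le ζ ζ'
  have h2 : (F.rho ζ ζ' : ℝ) / F.W ≤ 1 := by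
    rw [div_le_one F.W_pos_real_sheets1]; exact h
  linarith

theorem theta_le_one (ζ ζ' : F.Z × F.Gam) : F.theta ζ ζ' ≤ 1 := by
  unfold theta
  have h2 : 0 ≤ (F.rho ζ ζ' : ℝ) / F.W :=
    div_nonneg (Nat.cast_nonneg _) F.W_pos_real_sheets1.le
  linarith

theorem theta_eq_zero {ζ ζ' : F.Z × F.Gam} (h : ¬ F.rho ζ ζ' < F.W) : F.theta ζ ζ' = 0 := by
  have h1 : F.rho ζ ζ' = F.W := le_antisymm (F.rho_le ζ ζ') (Nat.le_of_not_lt h)
  unfold theta
  rw [h1, div_self F.W_pos_real_sheets1.ne', sub_self]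

theorem tau_inv_sheets1 (σ : F.S) : (F.tau σ)⁻¹ = F.tau σ :=
  inv_eq_of_mul_eq_one_left (F.tau_sq σ)

theorem prod_reverse_sheets1 (u : List F.S) :
    (u.reverse.map F.tau).prod = ((u.map F.tau).prod)⁻¹ := by
  induction u with
  | nil => simp
  | cons σ u ih =>
    have e1 : ((σ :: u).map F.tau).prod = F.tau σ * (u.map F.tau).prod := by
      rw [List.map_cons, List.prod_cons]
    have e2 : ([σ].map F.tau).prod = F.tau σ := by simp
    rw [List.reverse_cons, List.map_append, List.prod_append, ih, e1, e2,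
      mul_inv_rev, F.tau_inv_sheets1]

/-- Separation of the sheets: this is where the girth hypothesis is used. If `u₁, u₂` are words of
length `< W` from `ζ` to `(z₁, q)` and `(z₂, q)`, then `u₁ ++ u₂.reverse` has length `≤ 2 * W` and
is trivial in `Gam`, hence acts trivially on `Z`. -/
theorem rho_lt_unique {ζ : F.Z × F.Gam} {q : F.Gam} {z₁ z₂ : F.Z}
    (h₁ : F.rho ζ (z₁, q) < F.W) (h₂ : F.rho ζ (z₂, q) < F.W) : z₁ = z₂ := by
  obtain ⟨u₁, hl₁, ha₁⟩ := exists_word_of_cdist_lt F.nuZ F.W h₁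
  obtain ⟨u₂, hl₂, ha₂⟩ := exists_word_of_cdist_lt F.nuZ F.W h₂
  have hl₁' : u₁.length < F.W := by rw [hl₁]; exact h₁
  have hl₂' : u₂.length < F.W := by rw [hl₂]; exact h₂
  have f₁ : actW F.nu u₁ ζ.1 = z₁ := by rw [← F.actW_nuZ_fst, ha₁]
  have f₂ : actW F.nu u₂ ζ.1 = z₂ := by rw [← F.actW_nuZ_fst, ha₂]
  have s₁ : ζ.2 * (u₁.map F.tau).prod = q := by rw [← F.actW_nuZ_snd, ha₁]
  have s₂ : ζ.2 * (u₂.map F.tau).prod = q := by rw [← F.actW_nuZ_snd, ha₂]
  have hP : (u₁.map F.tau).prod = (u₂.map F.tau).prod := mul_left_cancel (s₁.trans s₂.symm)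
  have hlen : (u₁.reverse ++ u₂).length ≤ 2 * F.W := by
    rw [List.length_append, List.length_reverse]; omega
  have hprod : ((u₁.reverse ++ u₂).map F.tau).prod = 1 := by
    rw [List.map_append, List.prod_append, F.prod_reverse_sheets1, hP, inv_mul_cancel]
  have hg := F.girth _ hlen hprod z₁
  rw [actW_append] at hg
  have hr : actW F.nu u₁.reverse z₁ = ζ.1 := by
    rw [← f₁]; exact actW_reverse F.nu F.nu_nu u₁ ζ.1
  rw [hr, f₂] at hg
  exact hg.symm

theorem D_le_rho (ζ ζ' : F.Z × F.Gam) : F.D ζ.2 ζ'.2 ≤ F.rho ζ ζ' :=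
  cdist_map_le F.nuZ F.W F.nuG Prod.snd (fun _ _ => rfl) ζ ζ'

theorem abs_sub_div_sheets1 {a b : ℕ} (h1 : a ≤ b + 1) (h2 : b ≤ a + 1) :
    |(1 - (a : ℝ) / F.W) - (1 - (b : ℝ) / F.W)| ≤ 1 / F.W := by
  have e : (1 - (a : ℝ) / F.W) - (1 - (b : ℝ) / F.W) = ((b : ℝ) - a) / F.W := by ring
  rw [e, abs_div, abs_of_pos F.W_pos_real_sheets1]
  apply div_le_div_of_nonneg_right _ F.W_pos_real_sheets1.le
  have h1' : (a : ℝ) ≤ b + 1 := by exact_mod_cast h1
  have h2' : (b : ℝ) ≤ a + 1 := by exact_mod_cast h2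
  rw [abs_le]
  constructor <;> linarith

theorem abs_theta_sub_step_left (σ : F.S) (ζ ζ' : F.Z × F.Gam) :
    |F.theta ζ ζ' - F.theta (F.nuZ σ ζ) ζ'| ≤ 1 / F.W := by
  unfold theta
  apply F.abs_sub_div_sheets1
  · have h := cdist_step_left F.nuZ F.W F.nuZ_nuZ σ (F.nuZ σ ζ) ζ'
    rw [F.nuZ_nuZ] at h
    exact h
  · exact cdist_step_left F.nuZ F.W F.nuZ_nuZ σ ζ ζ'

theorem abs_theta_sub_step_right (σ : F.S) (ζ ζ' : F.Z × F.Gam) :
    |F.theta ζ ζ' - F.theta ζ (F.nuZ σ ζ')| ≤ 1 / F.W := by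
  unfold theta
  apply F.abs_sub_div_sheets1
  · have h := cdist_step_right F.nuZ F.W σ ζ (F.nuZ σ ζ')
    rw [F.nuZ_nuZ] at h
    exact h
  · exact cdist_step_right F.nuZ F.W σ ζ ζ'

end Frame

end Vale.Agent.P090
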