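import Vale.Agent.P090.K.Sheets1

/-!
# Sheets (P090, Kalton problem)

Elementary properties of the tent functions `F.theta ζ (z, q)`: for fixed `ζ` and `q` at most one
`z` gives a nonzero value (girth hypothesis), and the values add up to `1 - D (ζ.2, q) / W`.
-/

namespace Vale.Agent.P090

theorem sum_ite_le_of_unique {Z : Type*} (T : Finset Z) (P : Z → Prop) [DecidablePred P]
    (hP : ∀ z₁ z₂, P z₁ → P z₂ → z₁ = z₂) (c : ℝ) (hc : 0 ≤ c) :
    ∑ z ∈ T, (if P z then c else 0) ≤ c := by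
  rw [← Finset.sum_filter, Finset.sum_const, nsmul_eq_mul]
  have h1 : (T.filter P).card ≤ 1 := by
    apply Finset.card_le_one.2
    intro a ha b hb
    exact hP a b (Finset.mem_filter.1 ha).2 (Finset.mem_filter.1 hb).2
  have h2 : ((T.filter P).card : ℝ) ≤ 1 := by exact_mod_cast h1
  nlinarith

namespace Frame

variable (F : Frame)

/-- (K1) -/
theorem sum_theta_le_one (ζ : F.Z × F.Gam) (q : F.Gam) (T : Finset F.Z) :
    ∑ z ∈ T, F.theta ζ (z, q) ≤ 1 := by
  classical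
  refine le_trans (Finset.sum_le_sum (g := fun z => if F.rho ζ (z, q) < F.W then (1 : ℝ) else 0)
    ?_) (sum_ite_le_of_unique T _ (fun z₁ z₂ h₁ h₂ => F.rho_lt_unique h₁ h₂) 1 zero_le_one)
  intro z _
  by_cases h : F.rho ζ (z, q) < F.W
  · simp only [h, if_true]
    exact F.theta_le_one _ _
  · simp only [h, if_false]
    exact le_of_eq (F.theta_eq_zero h)

theorem two_div_W_aux (T : Finset F.Z) (g : F.Z → ℝ) (P₁ P₂ : F.Z → Prop)
    (h₁ : ∀ z₁ z₂, P₁ z₁ → P₁ z₂ → z₁ = z₂) (h₂ : ∀ z₁ z₂, P₂ z₁ → P₂ z₂ → z₁ = z₂)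
    (hg : ∀ z, g z ≤ 1 / F.W) (h0 : ∀ z, ¬ P₁ z → ¬ P₂ z → g z = 0) :
    ∑ z ∈ T, g z ≤ 2 / F.W := by
  classical
  have hc : (0 : ℝ) ≤ 1 / F.W := by positivity
  have e : (2 : ℝ) / F.W = 1 / F.W + 1 / F.W := by ring
  rw [e]
  refine le_trans (Finset.sum_le_sum (g := fun z => (if P₁ z then (1 : ℝ) / F.W else 0) +
    (if P₂ z then (1 : ℝ) / F.W else 0)) ?_) ?_
  · intro z _
    by_cases a : P₁ z
    · by_cases b : P₂ z
      · simp only [a, b, if_true]
        linarith [hg z]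
      · simp only [a, b, if_true, if_false]
        linarith [hg z]
    · by_cases b : P₂ z
      · simp only [a, b, if_true, if_false]
        linarith [hg z]
      · simp only [a, b, if_false]
        linarith [h0 z a b]
  · rw [Finset.sum_add_distrib]
    exact add_le_add (sum_ite_le_of_unique T _ h₁ _ hc) (sum_ite_le_of_unique T _ h₂ _ hc)

/-- (K2) -/
theorem sum_abs_theta_step_left (σ : F.S) (ζ : F.Z × F.Gam) (q : F.Gam) (T : Finset F.Z) :
    ∑ z ∈ T, |F.theta ζ (z, q) - F.theta (F.nuZ σ ζ) (z, q)| ≤ 2 / F.W := by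
  refine F.two_div_W_aux T _ (fun z => F.rho ζ (z, q) < F.W)
    (fun z => F.rho (F.nuZ σ ζ) (z, q) < F.W)
    (fun z₁ z₂ h₁ h₂ => F.rho_lt_unique h₁ h₂) (fun z₁ z₂ h₁ h₂ => F.rho_lt_unique h₁ h₂)
    (fun z => F.abs_theta_sub_step_left σ ζ (z, q)) ?_
  intro z a b
  rw [F.theta_eq_zero a, F.theta_eq_zero b]
  simp

/-- (K3) -/
theorem sum_abs_theta_step_right (σ : F.S) (ζ : F.Z × F.Gam) (q : F.Gam) (T : Finset F.Z) :
    ∑ z ∈ T, |F.theta ζ (z, q) - F.theta ζ (F.nu σ z, q * F.tau σ)| ≤ 2 / F.W := by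
  refine F.two_div_W_aux T _ (fun z => F.rho ζ (z, q) < F.W)
    (fun z => F.rho ζ (F.nu σ z, q * F.tau σ) < F.W)
    (fun z₁ z₂ h₁ h₂ => F.rho_lt_unique h₁ h₂) ?_
    (fun z => F.abs_theta_sub_step_right σ ζ (z, q)) ?_
  · intro z₁ z₂ h₁ h₂
    have h := F.rho_lt_unique h₁ h₂
    have h' := congrArg (F.nu σ) h
    rwa [F.nu_nu, F.nu_nu] at h'
  · intro z a b
    rw [F.theta_eq_zero a, F.theta_eq_zero b]
    simp

/-- (K4) -/
theorem sum_theta_eq (ζ : F.Z × F.Gam) (q : F.Gam) (T : Finset F.Z)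
    (hT : ∀ z, F.rho ζ (z, q) < F.W → z ∈ T) :
    ∑ z ∈ T, F.theta ζ (z, q) = 1 - (F.D ζ.2 q : ℝ) / F.W := by
  have hW : (0 : ℝ) < F.W := by exact_mod_cast F.W_pos
  by_cases hD : F.D ζ.2 q < F.W
  · obtain ⟨u, hu, hact⟩ := exists_word_of_cdist_lt F.nuG F.W hD
    set z₀ := actW F.nu u ζ.1 with hz₀
    have hact2 : actW F.nuZ u ζ = (z₀, q) := by
      apply Prod.ext
      · exact F.actW_nuZ_fst u ζ
      · rw [F.actW_nuZ_snd, ← F.actW_nuG]
        exact hact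
    have h1 : F.rho ζ (z₀, q) ≤ F.D ζ.2 q := by
      have := cdist_le_length F.nuZ F.W u hact2
      rw [hu] at this
      exact this
    have h2 : F.D ζ.2 q ≤ F.rho ζ (z₀, q) := F.D_le_rho ζ (z₀, q)
    have h3 : F.rho ζ (z₀, q) = F.D ζ.2 q := le_antisymm h1 h2
    have h4 : F.rho ζ (z₀, q) < F.W := by rw [h3]; exact hD
    rw [Finset.sum_eq_single_of_mem z₀ (hT z₀ h4)]
    · simp only [theta, h3]
    · intro z _ hz
      apply F.theta_eq_zero
      intro h5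
      exact hz (F.rho_lt_unique h5 h4)
  · have hDW : F.D ζ.2 q = F.W := le_antisymm (cdist_le_cap _ _ _ _) (not_lt.1 hD)
    rw [hDW, div_self hW.ne', sub_self]
    apply Finset.sum_eq_zero
    intro z _
    apply F.theta_eq_zero
    intro h5
    have := F.D_le_rho ζ (z, q)
    simp only at this
    omega

/-- The set of all `z : Z` which are reached from a point of `Φ` by a word of length `< W`. -/
def reach (Φ : Finset F.Pt) : Set F.Z :=
  {z | ∃ w ∈ Φ, ∃ u : List F.S, u.length < F.W ∧ actW F.nu u (F.e w.1) = z}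

theorem reach_finite (Φ : Finset F.Pt) : (F.reach Φ).Finite := by
  have h1 : ((Φ : Set F.Pt) ×ˢ {u : List F.S | u.length < F.W}).Finite :=
    Φ.finite_toSet.prod (List.finite_length_lt F.S F.W)
  refine (h1.image (fun p => actW F.nu p.2 (F.e p.1.1))).subset ?_
  rintro z ⟨w, hw, u, hu, rfl⟩
  exact ⟨(w, u), ⟨hw, hu⟩, rfl⟩

theorem mem_reach_of_rho_lt {Φ : Finset F.Pt} {w : F.Pt} (hw : w ∈ Φ) {z : F.Z} {q : F.Gam}
    (h : F.rho (F.emb w) (z, q) < F.W) : z ∈ F.reach Φ := by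
  obtain ⟨u, hu, hact⟩ := exists_word_of_cdist_lt F.nuZ F.W h
  refine ⟨w, hw, u, ?_, ?_⟩
  · rw [hu]
    exact h
  · have := F.actW_nuZ_fst u (F.emb w)
    rw [hact] at this
    exact this.symm

end Frame

end Vale.Agent.P090
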