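import Vale.Agent.P090.K.Tower

/-!
# Different levels of the tower have no common infinite reduced path (P090, Kalton problem)
-/

namespace Vale.Agent.P090

/-- A path in the Cayley graph of a level is given by the values of the words read. -/
theorem Lvl.path_add (C : Lvl) (s : ℕ → Fin 3) (y : ℕ → C.G)
    (hy : ∀ t, y (t + 1) = y t * C.gen (s t)) (t n : ℕ) :
    y (t + n) = y t * C.ev ((List.range n).map fun k => s (t + k)) := by
  induction n with
  | zero => simp [Lvl.ev]
  | succ n ih =>
    rw [← add_assoc, hy, ih, List.range_succ, List.map_append]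
    simp [Lvl.ev, mul_assoc]

theorem tp_fin3_common : ∀ h i j l : Fin 3, i ≠ h → l ≠ j → (h = j ∨ h = l ∨ i = j ∨ i = l) := by
  decide

theorem tp_fin3_other : ∀ c e : Fin 3, e ≠ c → e = c + 1 ∨ e = c + 2 := by
  decide

theorem tp_ofAdd_ne : (Multiplicative.ofAdd (1 : ZMod 2)) ≠ 1 := by
  decide

theorem tp_core (A B : Lvl) (hAB : ∀ w, A.ev w = 1 → B.ev w = 1)
    (g : ℕ → A.G) (f : ℕ → A.G → Fin 3 → Multiplicative (ZMod 2)) (x' : ℕ → B.G) (s : ℕ → Fin 3)
    (hg : ∀ t, g (t + 1) = g t * A.gen (s t))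
    (hf : ∀ t y c, f (t + 1) y c = f t y c * A.eta (s t) ((g t)⁻¹ * y) c)
    (hx' : ∀ t, x' (t + 1) = x' t * B.gen (s t))
    (hred : ∀ t, s (t + 1) ≠ s t)
    (hlab : ∀ t, A.nextLab ⟨f t, g t⟩ (s t) = B.lab (x' t) (s t))
    (hsymm : ∀ t, A.nextLab ⟨f (t + 1), g (t + 1)⟩ (s t) = A.nextLab ⟨f t, g t⟩ (s t)) :
    False := by
  -- minimal return time
  have hex : ∃ d, 0 < d ∧ ∃ t, g (t + 1) = g (t + 1 + d) := by
    have hni : ¬ Function.Injective (fun t => g (t + 1)) := not_injective_infinite_finite _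
    simp only [Function.Injective, not_forall] at hni
    obtain ⟨a, b, hab, hne⟩ := hni
    rcases lt_or_gt_of_ne hne with h | h
    · exact ⟨b - a, by omega, a, by rw [show a + 1 + (b - a) = b + 1 by omega]; exact hab⟩
    · exact ⟨a - b, by omega, b, by rw [show b + 1 + (a - b) = a + 1 by omega]; exact hab.symm⟩
  obtain ⟨d, ⟨hd0, t0, ht0⟩, hmin⟩ : ∃ d, (0 < d ∧ ∃ t, g (t + 1) = g (t + 1 + d)) ∧
      ∀ e < d, ¬ (0 < e ∧ ∃ t, g (t + 1) = g (t + 1 + e)) := by
    classical
    exact ⟨Nat.find hex, Nat.find_spec hex, fun e he => Nat.find_min hex he⟩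
  have hne : ∀ a b, 1 ≤ a → a < b → b < a + d → g a ≠ g b := by
    intro a b ha hab hbd h
    refine hmin (b - a) (by omega) ⟨by omega, a - 1, ?_⟩
    rw [show a - 1 + 1 = a by omega, show a + (b - a) = b by omega]
    exact h
  -- the return time is at least two
  have hd1 : d ≠ 1 := by
    intro h1
    rw [h1, hg (t0 + 1)] at ht0
    have h2 : g (t0 + 1) * 1 = g (t0 + 1) * A.gen (s (t0 + 1)) := by rw [mul_one]; exact ht0
    exact A.gen_ne_one _ (mul_left_cancel h2).symm
  obtain ⟨m, rfl⟩ : ∃ m, d = m + 2 := ⟨d - 2, by omega⟩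
  set T1 := t0 + 1 with hT1
  set v := g T1 with hv
  have hgJ : g (T1 + (m + 2)) = g (T1 + (m + 1)) * A.gen (s (T1 + (m + 1))) := hg (T1 + (m + 1))
  -- the path in `B` returns as well
  have hxx : x' (T1 + (m + 2)) = x' T1 := by
    have h1 := A.path_add s g hg T1 (m + 2)
    have h2 : A.ev ((List.range (m + 2)).map fun k => s (T1 + k)) = 1 := by
      have h3 : g T1 * 1 = g T1 * A.ev ((List.range (m + 2)).map fun k => s (T1 + k)) := by
        rw [mul_one, ← h1]; exact ht0
      exact (mul_left_cancel h3).symm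
    rw [B.path_add s x' hx' T1 (m + 2), hAB _ h2, mul_one]
  -- the bits at `v`
  have hb1 : ∀ n, n ≤ m → ∀ c, f (T1 + (n + 1)) v c
      = f T1 v c * (if c = s T1 then Multiplicative.ofAdd 1 else 1) := by
    intro n
    induction n with
    | zero =>
      intro _ c
      have h1 := hf T1 v c
      rw [hv, inv_mul_cancel] at h1
      rw [show T1 + (0 + 1) = T1 + 1 from rfl, hv, h1]
      simp [Lvl.eta]
    | succ n ih =>
      intro hn c
      have h1 := hf (T1 + (n + 1)) v c
      rw [show T1 + (n + 1 + 1) = T1 + (n + 1) + 1 from rfl, h1, ih (by omega) c]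
      have h2 : A.eta (s (T1 + (n + 1))) ((g (T1 + (n + 1)))⁻¹ * v) c = 1 := by
        unfold Lvl.eta
        rw [if_neg]
        rintro ⟨h | h, _⟩
        · rw [inv_mul_eq_one] at h
          exact hne T1 (T1 + (n + 1)) (by omega) (by omega) (by omega) h.symm
        · rw [inv_mul_eq_iff_eq_mul, ← hg] at h
          exact hne T1 (T1 + (n + 1) + 1) (by omega) (by omega) (by omega) h
      rw [h2, mul_one]
  have hbits : ∀ c, f (T1 + (m + 2)) v c
      = f T1 v c * (if c = s T1 then Multiplicative.ofAdd 1 else 1)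
        * (if c = s (T1 + (m + 1)) then Multiplicative.ofAdd 1 else 1) := by
    intro c
    have h1 := hf (T1 + (m + 1)) v c
    rw [show T1 + (m + 2) = T1 + (m + 1) + 1 from rfl, h1, hb1 m le_rfl c]
    have h2 : (g (T1 + (m + 1)))⁻¹ * v = A.gen (s (T1 + (m + 1))) := by
      rw [inv_mul_eq_iff_eq_mul, ← hgJ]; exact ht0
    rw [h2]
    simp [Lvl.eta]
  -- the labels
  have hlab' : ∀ t, A.nextLab ⟨f (t + 1), g (t + 1)⟩ (s t) = B.lab (x' (t + 1)) (s t) := by
    intro t
    rw [hsymm, hlab, hx', B.lab_symm]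
  have key : ∀ (c : Fin 3) (F1 F2 : A.G → Fin 3 → Multiplicative (ZMod 2)),
      A.nextLab ⟨F1, v⟩ c = A.nextLab ⟨F2, v⟩ c → A.bt F1 v c = A.bt F2 v c := by
    intro c F1 F2 h
    simp only [Lvl.nextLab] at h
    by_cases hs : A.sgn v = true
    · rw [if_pos hs, if_pos hs] at h
      simp only [Prod.mk.injEq, true_and] at h
      exact h.2
    · rw [if_neg hs, if_neg hs] at h
      simp only [Prod.mk.injEq, true_and] at h
      exact h.1
  have Eh : A.nextLab ⟨f T1, v⟩ (s t0) = B.lab (x' T1) (s t0) := hlab' t0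
  have Ei : A.nextLab ⟨f T1, v⟩ (s T1) = B.lab (x' T1) (s T1) := hlab T1
  have Ej : A.nextLab ⟨f (T1 + (m + 2)), v⟩ (s (T1 + (m + 1)))
      = B.lab (x' T1) (s (T1 + (m + 1))) := by
    have := hlab' (T1 + (m + 1))
    rw [show T1 + (m + 1) + 1 = T1 + (m + 2) from rfl, hxx, ← ht0] at this
    exact this
  have El : A.nextLab ⟨f (T1 + (m + 2)), v⟩ (s (T1 + (m + 2)))
      = B.lab (x' T1) (s (T1 + (m + 2))) := by
    have := hlab (T1 + (m + 2))
    rw [hxx, ← ht0] at this
    exact this
  obtain ⟨c, hc⟩ : ∃ c, A.nextLab ⟨f T1, v⟩ c = A.nextLab ⟨f (T1 + (m + 2)), v⟩ c := by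
    rcases tp_fin3_common (s t0) (s T1) (s (T1 + (m + 1))) (s (T1 + (m + 2))) (hred t0)
      (hred (T1 + (m + 1))) with h | h | h | h
    · exact ⟨s t0, by rw [Eh, h, Ej]⟩
    · exact ⟨s t0, by rw [Eh, h, El]⟩
    · exact ⟨s T1, by rw [Ei, h, Ej]⟩
    · exact ⟨s T1, by rw [Ei, h, El]⟩
  have hbt := key c _ _ hc
  simp only [Lvl.bt, Prod.mk.injEq, EmbeddingLike.apply_eq_iff_eq] at hbt
  have hsame : ∀ e, e ≠ c → f (T1 + (m + 2)) v e = f T1 v e := by
    intro e he
    rcases tp_fin3_other c e he with h | h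
    · rw [h]; exact hbt.1.symm
    · rw [h]; exact hbt.2.symm
  have hij : s T1 = s (T1 + (m + 1)) := by
    by_contra hij
    have hic : s T1 = c := by
      by_contra hcn
      have h1 := hsame _ hcn
      rw [hbits, if_pos rfl, if_neg hij, mul_one] at h1
      exact tp_ofAdd_ne (mul_left_cancel (h1.trans (mul_one _).symm))
    have hjc : s (T1 + (m + 1)) = c := by
      by_contra hcn
      have h1 := hsame _ hcn
      rw [hbits, if_pos rfl, if_neg (Ne.symm hij), mul_one] at h1
      exact tp_ofAdd_ne (mul_left_cancel (h1.trans (mul_one _).symm))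
    exact hij (hic.trans hjc.symm)
  -- the case of equal colours
  have h1 : g (T1 + (m + 1)) = v * A.gen (s (T1 + (m + 1))) := by
    rw [ht0, hgJ, mul_assoc, A.gen_sq, mul_one]
  have h2 : g (T1 + 1) = g (T1 + (m + 1)) := by
    rw [h1, ← hij]; exact hg T1
  rcases Nat.eq_zero_or_pos m with hm | hm
  · subst hm
    exact hred T1 hij.symm
  · exact hne (T1 + 1) (T1 + (m + 1)) (by omega) (by omega) (by omega) h2

/-- Key combinatorial fact. Let `B` be a level in which every word which is trivial in `A` is trivial.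
Then there is no infinite reduced sequence of colours `s` which, read from `x 0` in `A.next` and from
`x' 0` in `B`, sees the same labels.

Proof. Write `x t = (f t, g t)`. As `A.G` is finite there are `1 ≤ t₁ < t₂` with `g t₁ = g t₂ =: v` and
`t₂ - t₁` minimal, so that `g t ≠ v` for `t₁ < t < t₂`, and the `g t`, `t₁ ≤ t < t₂`, are distinct. The word
`s t₁ ... s (t₂ - 1)` is trivial in `A`, hence in `B`, so `x' t₁ = x' t₂`, and by `lab_symm` the four steps
`t₁ - 1, t₁, t₂ - 1, t₂` of the path in `B` run along edges at the vertex `x' t₁`, with colours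
`h = s (t₁ - 1)`, `i = s t₁ ≠ h`, `j = s (t₂ - 1)`, `l = s t₂ ≠ j`; two of these steps with the same
colour have the same label. The three bits `f t v c` change only when the path passes through `v`:
entering or leaving `v` along colour `c` flips the bit `c`. The label of a step along the edge of colour `c`
at `v` contains the two bits at `v` of the colours different from `c` (in a position which depends only on
the sign of `v`). Let `a` be the bits before time `t₁ - 1`, so that they are `a + h + i` between the two passages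
and `a + h + i + j + l` afterwards.
* `j = i` is impossible: then `g (t₂ - 1) = v * gen i = g (t₁ + 1)`, so `t₂ - 1 = t₁ + 1` and `s (t₁ + 1) = i = s t₁`.
* `j = h`: the label of the colour `h` sees the bit `i`, which has changed.
* `j = k` the third colour, `l = i`: the label of the colour `i` sees the bit `k`, which has changed.
* `j = k`, `l = h`: the label of the colour `h` sees the bit `i`, which has changed. -/
theorem no_common_path_next (A B : Lvl) (hAB : ∀ w, A.ev w = 1 → B.ev w = 1)
    (x : ℕ → A.next.G) (x' : ℕ → B.G) (s : ℕ → Fin 3)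
    (hx : ∀ t, x (t + 1) = x t * A.next.gen (s t)) (hx' : ∀ t, x' (t + 1) = x' t * B.gen (s t))
    (hred : ∀ t, s (t + 1) ≠ s t) (hlab : ∀ t, A.next.lab (x t) (s t) = B.lab (x' t) (s t)) :
    False := by
  let X : ℕ → RegularWreathProduct (Fin 3 → Multiplicative (ZMod 2)) A.G := x
  have hX : ∀ t, X (t + 1) = X t * A.nextGen (s t) := hx
  refine tp_core A B hAB (fun t => (X t).right) (fun t => (X t).left) x' s ?_ ?_ hx' hred ?_ ?_
  · intro t
    simp only [hX t]
    rfl
  · intro t y c
    simp only [hX t]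
    rfl
  · intro t
    exact hlab t
  · intro t
    have h := A.next.lab_symm (x t) (s t)
    rw [← hx t] at h
    exact h

end Vale.Agent.P090
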