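import Mathlib

/-!
# Words acting on sets, and capped word distances (P090, Kalton problem)

`S` is an alphabet, `ν : S → A → A` a family of maps of a set `A` (in all applications each `ν σ`
is an involution).  `actW ν u a` applies the letters of the word `u` from left to right.
`cdist ν W a b` is the least length of a word taking `a` to `b`, capped at `W`.
-/

namespace Vale.Agent.P090

section Words

variable {S A : Type*}

/-- Action of a word, the letters being applied from left to right. -/
def actW (ν : S → A → A) (u : List S) (a : A) : A := u.foldl (fun b σ => ν σ b) a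

@[simp] theorem actW_nil (ν : S → A → A) (a : A) : actW ν [] a = a := rfl

@[simp] theorem actW_cons (ν : S → A → A) (σ : S) (u : List S) (a : A) :
    actW ν (σ :: u) a = actW ν u (ν σ a) := rfl

theorem actW_append (ν : S → A → A) (u v : List S) (a : A) :
    actW ν (u ++ v) a = actW ν v (actW ν u a) := by
  simp [actW, List.foldl_append]

theorem actW_reverse (ν : S → A → A) (hν : ∀ σ a, ν σ (ν σ a) = a) (u : List S) (a : A) :
    actW ν u.reverse (actW ν u a) = a := by
  induction u generalizing a with
  | nil => rfl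
  | cons σ u ih =>
    rw [List.reverse_cons, actW_append, actW_cons ν σ u a, ih]
    simp [hν]

/-- Word distance capped at `W`. -/
noncomputable def cdist (ν : S → A → A) (W : ℕ) (a b : A) : ℕ :=
  sInf {n | n = W ∨ ∃ u : List S, u.length = n ∧ actW ν u a = b}

variable (ν : S → A → A) (W : ℕ)

theorem cdist_le_cap (a b : A) : cdist ν W a b ≤ W :=
  Nat.sInf_le (Or.inl rfl)

theorem cdist_le_length {a b : A} (u : List S) (h : actW ν u a = b) :
    cdist ν W a b ≤ u.length :=
  Nat.sInf_le (Or.inr ⟨u, rfl, h⟩)

theorem exists_word_of_cdist_lt {a b : A} (h : cdist ν W a b < W) :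
    ∃ u : List S, u.length = cdist ν W a b ∧ actW ν u a = b := by
  have hne : {n | n = W ∨ ∃ u : List S, u.length = n ∧ actW ν u a = b}.Nonempty :=
    ⟨W, Or.inl rfl⟩
  have hm := Nat.sInf_mem hne
  rcases hm with hm | hm
  · exact absurd hm (ne_of_lt h)
  · exact hm

theorem cdist_self (a : A) : cdist ν W a a = 0 :=
  Nat.le_zero.1 (cdist_le_length ν W [] rfl)

theorem eq_of_cdist_eq_zero (hW : 0 < W) {a b : A} (h : cdist ν W a b = 0) : a = b := by
  obtain ⟨u, hu, hab⟩ := exists_word_of_cdist_lt ν W (by rw [h]; exact hW)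
  rw [h, List.length_eq_zero_iff] at hu
  subst hu
  exact hab

private theorem cdist_comm_le (hν : ∀ σ a, ν σ (ν σ a) = a) (a b : A) :
    cdist ν W a b ≤ cdist ν W b a := by
  rcases lt_or_ge (cdist ν W b a) W with h | h
  · obtain ⟨u, hu, hab⟩ := exists_word_of_cdist_lt ν W h
    rw [← hu, ← List.length_reverse]
    apply cdist_le_length
    rw [← hab]
    exact actW_reverse ν hν u b
  · exact (cdist_le_cap ν W a b).trans h

theorem cdist_comm (hν : ∀ σ a, ν σ (ν σ a) = a) (a b : A) :
    cdist ν W a b = cdist ν W b a :=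
  le_antisymm (cdist_comm_le ν W hν a b) (cdist_comm_le ν W hν b a)

theorem cdist_triangle (a b c : A) : cdist ν W a c ≤ cdist ν W a b + cdist ν W b c := by
  rcases lt_or_ge (cdist ν W a b) W with h1 | h1
  · rcases lt_or_ge (cdist ν W b c) W with h2 | h2
    · obtain ⟨u, hu, hab⟩ := exists_word_of_cdist_lt ν W h1
      obtain ⟨v, hv, hbc⟩ := exists_word_of_cdist_lt ν W h2
      rw [← hu, ← hv, ← List.length_append]
      apply cdist_le_length
      rw [actW_append, hab, hbc]
    · exact (cdist_le_cap ν W a c).trans (h2.trans (Nat.le_add_left _ _))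
  · exact (cdist_le_cap ν W a c).trans (h1.trans (Nat.le_add_right _ _))

theorem cdist_step_right (σ : S) (a b : A) : cdist ν W a (ν σ b) ≤ cdist ν W a b + 1 := by
  refine (cdist_triangle ν W a b (ν σ b)).trans ?_
  have : cdist ν W b (ν σ b) ≤ [σ].length := cdist_le_length ν W [σ] rfl
  simpa using this

theorem cdist_step_left (hν : ∀ σ a, ν σ (ν σ a) = a) (σ : S) (a b : A) :
    cdist ν W (ν σ a) b ≤ cdist ν W a b + 1 := by
  refine (cdist_triangle ν W (ν σ a) a b).trans ?_
  have : cdist ν W (ν σ a) a ≤ [σ].length := cdist_le_length ν W [σ] (by simp [hν])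
  have h2 : cdist ν W (ν σ a) a ≤ 1 := by simpa using this
  omega

private theorem map_actW {B : Type*} (ν' : S → B → B) (f : A → B)
    (hf : ∀ σ a, f (ν σ a) = ν' σ (f a)) (u : List S) (a : A) :
    f (actW ν u a) = actW ν' u (f a) := by
  induction u generalizing a with
  | nil => rfl
  | cons σ u ih => rw [actW_cons, actW_cons, ih, hf]

/-- Equivariant maps do not increase capped word distances. -/
theorem cdist_map_le {B : Type*} (ν' : S → B → B) (f : A → B)
    (hf : ∀ σ a, f (ν σ a) = ν' σ (f a)) (a b : A) :
    cdist ν' W (f a) (f b) ≤ cdist ν W a b := by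
  rcases lt_or_ge (cdist ν W a b) W with h | h
  · obtain ⟨u, hu, hab⟩ := exists_word_of_cdist_lt ν W h
    rw [← hu]
    apply cdist_le_length
    rw [← map_actW ν ν' f hf, hab]
  · exact (cdist_le_cap ν' W _ _).trans h

end Words

end Vale.Agent.P090
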